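import Mathlib.RingTheory.TensorProduct.Free
import Mathlib.RingTheory.TensorProduct.Maps
import Mathlib.RingTheory.TensorProduct.Finite
import Mathlib.LinearAlgebra.Dimension.Constructions
import Mathlib.LinearAlgebra.Dimension.Free
import Mathlib.LinearAlgebra.FiniteDimensional.Lemmas
import Mathlib.LinearAlgebra.Matrix.ToLin
import Mathlib.LinearAlgebra.Matrix.NonsingularInverse
import Mathlib.LinearAlgebra.Basis.VectorSpace
import Mathlib.FieldTheory.IntermediateField.Adjoin.Basic
import Mathlib.FieldTheory.Minpoly.Field

/-!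
# Scalar extension of a division algebra by a field of degree prime to the degree of the algebra

* `exists_left_inv`: `L ⊗ D` is a division ring if `dim D = n ^ 2` and `[L : K]` is prime to `n`;
* `det_ne_zero`: under a splitting over a field containing `L`, every nonzero `L`-combination of
  `K`-independent elements of `D` has nonzero determinant;
* `finrank_adjoin_le`: a root of a quadratic polynomial generates an extension of degree one or two.
-/

open Module TensorProduct Polynomial IntermediateField

namespace Vale.Agent.P011.H124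

/-- `L ⊗ D` is a division ring if `dim D = n ^ 2` and the degree of `L` is prime to `n`. -/
theorem exists_left_inv {K D L : Type*} [Field K] [DivisionRing D] [Algebra K D] {n : ℕ}
    (hn : 0 < n) (h9 : finrank K D = n ^ 2) [Field L] [Algebra K L] [FiniteDimensional K L]
    (hc : Nat.Coprime n (finrank K L)) {x : L ⊗[K] D} (hx : x ≠ 0) :
    ∃ y : L ⊗[K] D, y * x = 1 := by
  have : FiniteDimensional K D := FiniteDimensional.of_finrank_pos (by rw [h9]; positivity)
  have : FiniteDimensional L (L ⊗[K] D) := inferInstance
  have hL : finrank L (L ⊗[K] D) = n ^ 2 := by rw [Module.finrank_baseChange, h9]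
  let J : Ideal (L ⊗[K] D) := Ideal.span {x}
  let I : Submodule L (L ⊗[K] D) := J.restrictScalars L
  let mD : Module D J :=
    Module.compHom J (Algebra.TensorProduct.includeRight (R := K) (A := L) (B := D)).toRingHom
  have hsm : ∀ (d : D) (y : J), d • y = ((1 : L) ⊗ₜ[K] d) • y := fun d y => rfl
  have : IsScalarTower K D J := ⟨fun c d y => by
    rw [hsm, hsm, TensorProduct.tmul_smul, smul_assoc]⟩
  have e1 : finrank K D * finrank D J = finrank K J := Module.finrank_mul_finrank K D J
  have e2 : finrank K L * finrank L I = finrank K I := Module.finrank_mul_finrank K L I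
  have e3 : finrank K I = finrank K J := rfl
  have e4 : n ^ 2 ∣ finrank L I := by
    have h0 : n ^ 2 ∣ finrank K L * finrank L I := ⟨finrank D J, by rw [e2, e3, ← e1, h9]⟩
    exact (Nat.Coprime.pow_left 2 hc).dvd_of_dvd_mul_left h0
  have e5 : finrank L I ≤ n ^ 2 := hL ▸ Submodule.finrank_le I
  have hxI : x ∈ I := Ideal.subset_span rfl
  have e6 : finrank L I ≠ 0 := by
    intro h0
    have h1 : I = ⊥ := Submodule.finrank_eq_zero.1 h0
    rw [h1, Submodule.mem_bot] at hxI
    exact hx hxI
  have e7 : finrank L I = n ^ 2 :=
    le_antisymm e5 (Nat.le_of_dvd (Nat.pos_of_ne_zero e6) e4)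
  have e8 : I = ⊤ := Submodule.eq_top_of_finrank_eq (by rw [e7, hL])
  have e9 : (1 : L ⊗[K] D) ∈ J := by
    have : (1 : L ⊗[K] D) ∈ I := e8 ▸ Submodule.mem_top
    exact this
  obtain ⟨y, hy⟩ := Ideal.mem_span_singleton'.1 e9
  exact ⟨y, hy⟩

/-- An element which is a root of a nonzero polynomial of degree `≤ 2` generates an extension of
degree one or two. -/
theorem finrank_adjoin_le {F κ : Type*} [Field F] [Field κ] [Algebra F κ] {y : κ}
    {c0 c1 c2 : F} (hc : c2 ≠ 0)
    (hy : algebraMap F κ c2 * y ^ 2 + algebraMap F κ c1 * y + algebraMap F κ c0 = 0) :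
    IsIntegral F y ∧ (finrank F F⟮y⟯ = 1 ∨ finrank F F⟮y⟯ = 2) := by
  set P : F[X] := C c2 * X ^ 2 + C c1 * X + C c0 with hP
  have hdeg : P.natDegree = 2 := natDegree_quadratic hc
  have hP0 : P ≠ 0 := by
    intro h0
    rw [h0, natDegree_zero] at hdeg
    exact absurd hdeg (by norm_num)
  have hev : aeval y P = 0 := by
    rw [hP]
    simp only [map_add, map_mul, aeval_C, map_pow, aeval_X]
    exact hy
  have hint : IsIntegral F y := (isAlgebraic_iff_isIntegral).1 ⟨P, hP0, hev⟩
  refine ⟨hint, ?_⟩
  rw [adjoin.finrank hint]
  have h1 : (minpoly F y).natDegree ≤ 2 := hdeg ▸ natDegree_le_of_dvd (minpoly.dvd F y hev) hP0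
  have h2 : 0 < (minpoly F y).natDegree := minpoly.natDegree_pos hint
  omega

section det

variable {K D κ ι : Type*} [Field K] [DivisionRing D] [Algebra K D] [Field κ] [Algebra K κ]
  [Fintype ι]

/-- A combination of linearly independent elements with coefficients in an extension of degree
prime to `n` is invertible, so its image under a splitting has nonzero determinant. -/
theorem det_ne_zero {n : ℕ} (hn : 0 < n) (h9 : finrank K D = n ^ 2)
    (f : D →ₐ[K] Matrix (Fin n) (Fin n) κ)
    (L : IntermediateField K κ) [FiniteDimensional K L] (hc : Nat.Coprime n (finrank K L))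
    {e : ι → D} (he : LinearIndependent K e) (x : ι → L) (hx : x ≠ 0) :
    (∑ i, (x i : κ) • f (e i)).det ≠ 0 := by
  have : FiniteDimensional K D := FiniteDimensional.of_finrank_pos (by rw [h9]; positivity)
  have hcomm : ∀ (a : L) (b : D),
      Commute ((Algebra.ofId L (Matrix (Fin n) (Fin n) κ)) a) (f b) :=
    fun a b => Algebra.commutes a (f b)
  let F : L ⊗[K] D →ₐ[L] Matrix (Fin n) (Fin n) κ :=
    Algebra.TensorProduct.lift (Algebra.ofId L _) f hcomm
  have hF : ∀ (a : L) (b : D), F (a ⊗ₜ b) = (a : κ) • f b := by
    intro a b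
    have h := Algebra.TensorProduct.lift_tmul (Algebra.ofId L (Matrix (Fin n) (Fin n) κ)) f
      hcomm a b
    rw [Algebra.ofId_apply, ← Algebra.smul_def] at h
    exact h
  set y : L ⊗[K] D := ∑ i, x i ⊗ₜ e i with hy
  have hFy : F y = ∑ i, (x i : κ) • f (e i) := by
    rw [hy, map_sum]
    exact Finset.sum_congr rfl fun i _ => hF _ _
  have hy0 : y ≠ 0 := by
    intro h0
    apply hx
    have hli : LinearIndependent L fun i => (1 : L) ⊗ₜ[K] e i := by
      have h1 := he.linearIndepOn_id
      let b := Basis.extend h1
      have h2 := (Algebra.TensorProduct.basis L b).linearIndependent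
      let g : ι → _ := fun i => (⟨e i, Basis.subset_extend h1 ⟨i, rfl⟩⟩ :
        h1.extend (Set.subset_univ _))
      have hg : Function.Injective g := by
        intro i j hij
        exact he.injective (congrArg Subtype.val hij)
      have h4 := h2.comp g hg
      convert h4 using 1
      ext i
      simp only [Function.comp_apply, Algebra.TensorProduct.basis_apply]
      rw [Basis.extend_apply_self]
    rw [Fintype.linearIndependent_iff] at hli
    have h5 := hli x (by
      rw [← h0, hy]
      exact Finset.sum_congr rfl fun i _ => by rw [TensorProduct.smul_tmul', smul_eq_mul, mul_one])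
    ext i
    rw [h5 i]
    rfl
  obtain ⟨z, hz⟩ := exists_left_inv hn h9 hc hy0
  rw [← hFy]
  intro h0
  have h1 : F z * F y = 1 := by rw [← map_mul, hz]; exact F.map_one'
  have h2 : (F z * F y).det = 0 := by rw [Matrix.det_mul, h0, mul_zero]
  rw [h1, Matrix.det_one] at h2
  exact one_ne_zero h2

end det

end Vale.Agent.P011.H124
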