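import Vale.Agent.P011.H124.E2d
import Vale.Agent.P011.H872.RootType

/-!
**The common cubic field** of finitely many elements of `K`, over number fields.
-/

open NumberField IsDedekindDomain Module

namespace Vale.Agent.P011.H124

open Vale.Agent.P011.H775 Vale.Agent.P011.Even Vale.Agent.P011.One
open Vale.Agent.P011.Arith Vale.Agent.P011.H487

variable {k K D : Type} [Field k] [NumberField k] [Field K] [NumberField K] [StarRing K]
  [DivisionRing D] [StarRing D] [Algebra k K] [Algebra k D] [Algebra K D] [IsScalarTower k K D]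
  {d : kˣ} {s : K}

/-- **The common field.** Finitely many elements of `K` which are cubes at the places where `D`
is a division algebra are, everywhere locally, norms from one cubic field `K(a)`, `a` symmetric
of trace zero. -/
theorem common (hS : Setting k K D d s) (hdeg : finrank K D = 3 ^ 2) (C : Cub K D)
    {zs : Set K} (hzs : zs.Finite) (hz0 : ∀ z ∈ zs, z ≠ 0)
    (hzT : ∀ z ∈ zs, ∀ v : HeightOneSpectrum (𝓞 k), (Sum.inl v : Pl k) ∈ Tdiv k K D →
      ∀ V : HeightOneSpectrum (𝓞 K), V.asIdeal.comap (algebraMap (𝓞 k) (𝓞 K)) = v.asIdeal →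
      ∃ c : K, V.valuation K (z / c ^ 3 - 1) < V.valuation K 9) :
    ∃ a : D, star a = a ∧ a ∉ Set.range (algebraMap K D) ∧ C.T a = 0 ∧
      ∀ z ∈ zs, ∀ V : HeightOneSpectrum (𝓞 K), LocD C a V z :=
  common_of_rt hS hdeg C (fun hP hPT a1 => H872.exists_root_type hS hdeg C hP hPT a1) hzs hz0 hzT

end Vale.Agent.P011.H124
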