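import Vale.Agent.P011.H124.DivExt
import Vale.Agent.P011.H948.ChartC
import Mathlib.FieldTheory.IsAlgClosed.AlgebraicClosure

/-!
# The line `s₁ + t s₂` in the space of symmetric elements of trace zero

`S (s₁ + t s₂)` and `N (s₁ + t s₂)` are coprime polynomials in `t`: a common root generates an
extension of degree at most two, over which `D` is still a division algebra.
Any field, any characteristic.
-/

open Module TensorProduct Polynomial IntermediateField
open Vale.Agent.P011.H775 Vale.Agent.P011.H948

namespace Vale.Agent.P011.H124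

section gen

variable {K D : Type} [Field K] [DivisionRing D] [Algebra K D] (C : Cub K D)

/-- `S` on a line of elements of trace zero. -/
theorem S_line {x y : D} (hx : C.T x = 0) (t : K) :
    C.S (x + t • y) = C.S x + t * (- C.T (x * y)) + t ^ 2 * C.S y := by
  have h1 : C.S (x + t • y) = C.S x + C.S (t • y) + C.T (C.cr x (t • y)) := by
    rw [Cub.S, C.adj_add, map_add, map_add]
    rfl
  have h2 : C.T (x * t • y) = t * C.T (x * y) := by
    rw [mul_smul_comm, map_smul, smul_eq_mul]
  rw [h1, C.S_smul, C.T_cr, hx, h2]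
  ring

/-- `N` on a line. -/
theorem N_line (x y : D) (t : K) :
    C.N (x + t • y) = C.N x + t * C.T (C.adj x * y) + t ^ 2 * C.T (x * C.adj y) +
      t ^ 3 * C.N y := by
  rw [C.N_add, C.adj_smul, C.N_smul, mul_smul_comm, mul_smul_comm, map_smul, map_smul,
    smul_eq_mul, smul_eq_mul]

/-- The polynomials `S (x + t y)`, `N (x + t y)` are coprime. -/
theorem coprime_line (h9 : finrank K D = 3 ^ 2) {x y : D} (hx : C.T x = 0) (hy : C.T y = 0)
    (hS : C.S y ≠ 0) (hli : ∀ c : K, x ≠ c • y) :
    IsCoprime (Polynomial.C (C.S x) + Polynomial.C (-C.T (x * y)) * X +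
        Polynomial.C (C.S y) * X ^ 2)
      (Polynomial.C (C.N x) + Polynomial.C (C.T (C.adj x * y)) * X +
        Polynomial.C (C.T (x * C.adj y)) * X ^ 2 + Polynomial.C (C.N y) * X ^ 3) := by
  obtain ⟨Ω, _, _, f, hf, hT, hN, hA⟩ := C.spl
  let κ := AlgebraicClosure Ω
  let f' : D →ₐ[K] Matrix (Fin 3) (Fin 3) κ :=
    ((Algebra.ofId Ω κ).restrictScalars K).mapMatrix.comp f
  have hf' : ∀ z, f' z = (algebraMap Ω κ).mapMatrix (f z) := fun z => rfl
  have hK : ∀ c : K, algebraMap K κ c = algebraMap Ω κ (algebraMap K Ω c) :=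
    fun c => IsScalarTower.algebraMap_apply K Ω κ c
  have htr : ∀ z, (f' z).trace = algebraMap K κ (C.T z) := by
    intro z
    rw [hf', hK, ← hT]
    exact (AddMonoidHom.map_trace (algebraMap Ω κ : Ω →+ κ) (f z)).symm
  have hdt : ∀ z, (f' z).det = algebraMap K κ (C.N z) := by
    intro z
    rw [hf', hK, ← hN, RingHom.map_det]
  have had : ∀ z, (f' z).adjugate = f' (C.adj z) := by
    intro z
    rw [hf', hf', ← hA, RingHom.map_adjugate]
  refine (isCoprime_iff_aeval_ne_zero_of_isAlgClosed K κ _ _).mpr ?_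
  intro a
  by_contra hcon
  push Not at hcon
  obtain ⟨h1, h2⟩ := hcon
  simp only [map_add, map_mul, aeval_C, map_pow, aeval_X] at h1 h2
  have h3 := finrank_adjoin_le (y := a) (c0 := C.S x) (c1 := -C.T (x * y)) (c2 := C.S y) hS (by
    rw [← h1]; ring)
  have hfd : FiniteDimensional K K⟮a⟯ := adjoin.finiteDimensional h3.1
  have hc : Nat.Coprime 3 (finrank K K⟮a⟯) := by
    rcases h3.2 with h | h <;> rw [h] <;> norm_num
  have he : LinearIndependent K ![x, y] := by
    rw [LinearIndependent.pair_iff]
    intro s t hst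
    by_cases hs : s = 0
    · subst hs
      rw [zero_smul, zero_add, smul_eq_zero] at hst
      rcases hst with h | h
      · exact ⟨rfl, h⟩
      · exfalso
        apply hS
        rw [h, Cub.S, C.adj_zero, map_zero]
    · exfalso
      apply hli (-(s⁻¹ * t))
      have h5 : x = -(s⁻¹ • (t • y)) := by
        have h6 : s • x = -(t • y) := eq_neg_of_add_eq_zero_left hst
        rw [← smul_neg, ← h6, smul_smul, inv_mul_cancel₀ hs, one_smul]
      rw [neg_smul, mul_smul]
      exact h5
  have hdet := det_ne_zero (by norm_num) h9 f' K⟮a⟯ hc he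
    ![1, AdjoinSimple.gen K a] (by
      intro h0
      have := congrFun h0 0
      simp at this)
  apply hdet
  rw [Fin.sum_univ_two]
  simp only [Matrix.cons_val_zero, Matrix.cons_val_one, OneMemClass.coe_one, one_smul,
    AdjoinSimple.coe_gen]
  rw [mat_det_add, Matrix.det_smul, Matrix.adjugate_smul, had, had]
  simp only [Matrix.smul_mul, Matrix.mul_smul, Matrix.trace_smul, Fintype.card_fin, smul_eq_mul,
    Nat.add_one_sub_one, ← map_mul, htr, hdt]
  rw [← h2]
  ring

end gen

end Vale.Agent.P011.H124
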