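import Vale.Agent.P011.H124.E2v
import Vale.Agent.P011.H672.Conic
import Vale.Agent.P011.H321.AvoidA

/-!
The choice of the parameter on a line `s₁ + t s₂`: good at all places outside a given set.
-/

open NumberField IsDedekindDomain Polynomial

namespace Vale.Agent.P011.H124

open Vale.Agent.P011.Arith (Z0)

section nf

variable {k : Type} [Field k] [NumberField k]

theorem exists_t {e0 e1 e2 n0 n1 n2 n3 : k} (hn0 : n0 ≠ 0) (hn3 : n3 ≠ 0)
    (hco : IsCoprime (C e0 + C e1 * X + C e2 * X ^ 2)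
      (C n0 + C n1 * X + C n2 * X ^ 2 + C n3 * X ^ 3))
    {Td P : Set (HeightOneSpectrum (𝓞 k))} (hP : P.Finite)
    (hr : ∀ v : HeightOneSpectrum (𝓞 k), v ∉ Td →
      (v ∈ P ∨ v.valuation k n0 ≠ 1 ∨ 1 < v.valuation k e0) →
      v.valuation k n3 ^ 2 < v.valuation k e2 ^ 3) :
    ∃ t : k, t ≠ 0 ∧ ∀ v : HeightOneSpectrum (𝓞 k), v ∉ Td →
      v.valuation k (n0 + t * n1 + t ^ 2 * n2 + t ^ 3 * n3) ^ 2 <
        v.valuation k (e0 + t * e1 + t ^ 2 * e2) ^ 3 ∨
      (v ∉ P ∧ ∃ c : k, c ≠ 0 ∧ v.valuation k (c ^ 2 * (e0 + t * e1 + t ^ 2 * e2)) ≤ 1 ∧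
        v.valuation k (c ^ 3 * (n0 + t * n1 + t ^ 2 * n2 + t ^ 3 * n3)) = 1) := by
  classical
  set pe : k[X] := C e0 + C e1 * X + C e2 * X ^ 2 with hpe
  set pn : k[X] := C n0 + C n1 * X + C n2 * X ^ 2 + C n3 * X ^ 3 with hpn
  have hspan : Ideal.span (Set.range ![pe, pn]) = ⊤ := by
    rw [Matrix.range_cons, Matrix.range_cons, Matrix.range_empty, Set.union_empty,
      Set.singleton_union]
    exact Ideal.isCoprime_span_singleton_iff _ _ |>.mpr hco |> fun h => by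
      rw [Ideal.span_insert]; exact Ideal.isCoprime_iff_sup_eq.mp h
  obtain ⟨S, hS, hu⟩ := H672.exists_unit ![pe, pn] hspan
  have hS2 := H672.intAt_finite pe
  have hS3 := H672.intAt_finite pn
  have hS4 := H321.Avoid.hos_finite (R := 𝓞 k) hn3
  have hQ1 := H321.Avoid.hos_finite (R := 𝓞 k) hn0
  have hQ2 : {v : HeightOneSpectrum (𝓞 k) | 1 < v.valuation k e0}.Finite :=
    HeightOneSpectrum.Support.finite (𝓞 k) e0
  set Q : Set (HeightOneSpectrum (𝓞 k)) := P ∪ ({v | v.valuation k n0 ≠ 1} ∪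
    {v | 1 < v.valuation k e0}) with hQdef
  have hQ : Q.Finite := hP.union (hQ1.union hQ2)
  set S4 := S ∪ {v | ¬ H672.IntAt v pe} ∪ {v | ¬ H672.IntAt v pn} ∪ {v | v.valuation k n3 ≠ 1}
    with hS4def
  have hSf : S4.Finite := ((hS.union hS2).union hS3).union hS4
  have hex : ∀ v : HeightOneSpectrum (𝓞 k), ∃ γ : Z0,
      (v ∈ S4 \ Q → γ ≠ 0 ∧ ∀ t : k, v.valuation k t < γ →
        v.valuation k (e0 + t * e1 + t ^ 2 * e2) ≤ 1 ∧
        v.valuation k (n0 + t * n1 + t ^ 2 * n2 + t ^ 3 * n3) = 1) ∧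
      (v ∈ Q → v ∉ Td → ∀ t : k, γ < v.valuation k t →
        v.valuation k (n0 + t * n1 + t ^ 2 * n2 + t ^ 3 * n3) ^ 2 <
        v.valuation k (e0 + t * e1 + t ^ 2 * e2) ^ 3) := by
    intro v
    by_cases hv : v ∈ Q
    · by_cases hT : v ∈ Td
      · exact ⟨1, fun h => absurd hv h.2, fun _ h => absurd hT h⟩
      · obtain ⟨γ, h⟩ := near_inf (v := v.valuation k) e0 e1 e2 n0 n1 n2 n3 (hr v hT hv)
        exact ⟨γ, fun h => absurd hv h.2, fun _ _ => h⟩
    · simp only [hQdef, Set.mem_union, Set.mem_ofPred_eq, not_or, not_not, not_lt] at hv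
      obtain ⟨γ, h0, h⟩ := near_unit (v := v.valuation k) e0 e1 e2 n0 n1 n2 n3 hv.2.2 hv.2.1
      refine ⟨γ, fun _ => ⟨h0, h⟩, fun h' => ?_⟩
      exfalso
      simp only [hQdef, Set.mem_union, Set.mem_ofPred_eq] at h'
      rcases h' with h' | h' | h'
      · exact hv.1 h'
      · exact h' hv.2.1
      · exact absurd h' (not_lt.mpr hv.2.2)
  choose γ hγT hγQ using hex
  obtain ⟨t, -, ht0, h1, h2⟩ := H672.exists_param hQ (hSf.subset Set.sdiff_subset : (S4 \ Q).Finite)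
    Set.finite_empty γ (fun v hv => (hγT v hv).1)
  refine ⟨t, ht0, fun v hv => ?_⟩
  by_cases hvQ : v ∈ Q
  · exact Or.inl (hγQ v hvQ hv t (h2 v hvQ fun h => h.2 hvQ))
  have hvP : v ∉ P := fun h => hvQ (Or.inl h)
  by_cases hvS : v ∈ S4
  · obtain ⟨h3, h4⟩ := (hγT v ⟨hvS, hvQ⟩).2 t (h1 v ⟨hvS, hvQ⟩)
    exact Or.inr ⟨hvP, 1, one_ne_zero, by simpa using h3, by simpa using h4⟩
  · simp only [hS4def, Set.mem_union, Set.mem_ofPred_eq, not_or, not_not] at hvS
    obtain ⟨⟨⟨h5, h6⟩, h7⟩, h8⟩ := hvS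
    have ce0 : pe.coeff 0 = e0 := by simp [hpe]
    have ce1 : pe.coeff 1 = e1 := by simp [hpe]
    have ce2 : pe.coeff 2 = e2 := by simp [hpe]
    have cn0 : pn.coeff 0 = n0 := by simp [hpn]
    have cn1 : pn.coeff 1 = n1 := by simp [hpn]
    have cn2 : pn.coeff 2 = n2 := by simp [hpn]
    have := good_all (v := v.valuation k) (e0 := e0) (e1 := e1) (e2 := e2) (n0 := n0) (n1 := n1)
      (n2 := n2) (n3 := n3) (ce0 ▸ h6 0) (ce1 ▸ h6 1) (ce2 ▸ h6 2) (cn0 ▸ h7 0) (cn1 ▸ h7 1)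
      (cn2 ▸ h7 2) h8 (by
        intro t ht
        obtain ⟨j, hj⟩ := hu v h5 t ht
        fin_cases j
        · left
          convert hj using 2
          simp [hpe]
          ring
        · right
          convert hj using 2
          simp [hpn]
          ring) t
    rcases this with h | h
    · exact Or.inl h
    · exact Or.inr ⟨hvP, h⟩

end nf

end Vale.Agent.P011.H124
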