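import Vale.Agent.P011.H124.E2a
import Vale.Agent.P011.H124.E2t
import Vale.Agent.P011.H487.LocD
import Vale.Agent.P011.One.SplitLT

/-!
**A common cubic field** `K(a)`, `a` symmetric of trace zero, for finitely many elements of `K`
which are cubes at the places where `D` is a division algebra: everywhere locally they are norms
from `K(a)`.
-/

open NumberField IsDedekindDomain Polynomial Module

namespace Vale.Agent.P011.H124

open Vale.Agent.P011.H775 Vale.Agent.P011.H948 Vale.Agent.P011.Even Vale.Agent.P011.One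
open Vale.Agent.P011.Arith Vale.Agent.P011.H487

section scale

variable {K D : Type} [Field K] [NumberField K] [Ring D] [Algebra K D]

/-- The local condition only depends on the line spanned by `h`. -/
theorem locD_smul {C : Cub K D} {h : D} {V : HeightOneSpectrum (𝓞 K)} {b : K} {c : K}
    (hl : LocD C (c • h) V b) : LocD C h V b := by
  obtain ⟨e, he⟩ := hl
  refine ⟨![e 0, e 1 * c, e 2 * c ^ 2], ?_⟩
  have e1 : e 0 • (1 : D) + e 1 • c • h + e 2 • (c • h * c • h) =
      e 0 • (1 : D) + (e 1 * c) • h + (e 2 * c ^ 2) • (h * h) := by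
    rw [smul_smul, smul_mul_smul_comm, smul_smul, sq]
  rw [e1] at he
  exact he

/-- Cubes are norms. -/
theorem locD_of_cube {C : Cub K D} {h : D} {V : HeightOneSpectrum (𝓞 K)} {b c : K}
    (hc : V.valuation K (b / c ^ 3 - 1) < V.valuation K 9) : LocD C h V b := by
  refine ⟨![c, 0, 0], ?_⟩
  have e1 : (![c, 0, 0] : Fin 3 → K) 0 • (1 : D) + (![c, 0, 0] : Fin 3 → K) 1 • h +
      (![c, 0, 0] : Fin 3 → K) 2 • (h * h) = c • (1 : D) := by
    simp
  rw [e1, N_smul_one]
  exact hc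

end scale

section line

variable {k K D : Type} [Field k] [NumberField k] [Field K] [StarRing K]
  [DivisionRing D] [StarRing D] [Algebra k K] [Algebra k D] [Algebra K D] [IsScalarTower k K D]
  {d : kˣ} {s : K}

/-- The two polynomials on a line over the ground field. -/
theorem exists_line (hS : Setting k K D d s) (hdeg : finrank K D = 3 ^ 2) (C : Cub K D) {x y : D}
    (hx : star x = x) (hy : star y = y) (hTx : C.T x = 0) (hTy : C.T y = 0) (hSy : C.S y ≠ 0)
    (hli : ∀ c : k, x ≠ c • y) : ∃ e0 e1 e2 n0 n1 n2 n3 : k,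
      algebraMap k K e0 = C.S x ∧ algebraMap k K e2 = C.S y ∧ algebraMap k K n0 = C.N x ∧
      algebraMap k K n3 = C.N y ∧
      IsCoprime (Polynomial.C e0 + Polynomial.C e1 * X + Polynomial.C e2 * X ^ 2)
        (Polynomial.C n0 + Polynomial.C n1 * X + Polynomial.C n2 * X ^ 2 +
          Polynomial.C n3 * X ^ 3) ∧
      ∀ t : k, algebraMap k K (e0 + t * e1 + t ^ 2 * e2) = C.S (x + t • y) ∧
        algebraMap k K (n0 + t * n1 + t ^ 2 * n2 + t ^ 3 * n3) = C.N (x + t • y) := by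
  have := hS.fin
  have := hS.cen
  have hSC : SCub C := sCub_of C hdeg hS.star_smul
  obtain ⟨e0, he0⟩ := (hS.fix _).mp (hSC.S_symm hx)
  obtain ⟨e2, he2⟩ := (hS.fix _).mp (hSC.S_symm hy)
  obtain ⟨e1, he1⟩ := (hS.fix _).mp (hSC.T_mul_symm hx hy)
  obtain ⟨n0, hn0⟩ := (hS.fix _).mp (hSC.N_symm hx)
  obtain ⟨n3, hn3⟩ := (hS.fix _).mp (hSC.N_symm hy)
  obtain ⟨n1, hn1⟩ := (hS.fix _).mp (hSC.T_mul_symm (hSC.adj_symm hx) hy)
  obtain ⟨n2, hn2⟩ := (hS.fix _).mp (hSC.T_mul_symm hx (hSC.adj_symm hy))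
  have hy0 : y ≠ 0 := by
    rintro rfl
    apply hSy
    rw [Cub.S, C.adj_zero, map_zero]
  have hliK : ∀ c : K, x ≠ c • y := by
    intro c hc
    have h1 : star c • y = c • y := by
      rw [← hc]
      conv_rhs => rw [← hx, hc, hS.star_smul, hy]
    have h2 : star c = c := by
      by_contra hne
      apply hy0
      have h3 : (star c - c) • y = 0 := by rw [sub_smul, h1, sub_self]
      exact (smul_eq_zero.mp h3).resolve_left (sub_ne_zero.mpr hne)
    obtain ⟨c', rfl⟩ := (hS.fix _).mp h2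
    apply hli c'
    rw [hc, algebraMap_smul]
  refine ⟨e0, -e1, e2, n0, n1, n2, n3, he0, he2, hn0, hn3, ?_, fun t => ⟨?_, ?_⟩⟩
  · have h1 := coprime_line C hdeg hTx hTy hSy hliK
    rw [← he0, ← he1, ← he2, ← hn0, ← hn1, ← hn2, ← hn3] at h1
    rw [← Polynomial.isCoprime_map (algebraMap k K)]
    simpa only [Polynomial.map_add, Polynomial.map_mul, Polynomial.map_pow, Polynomial.map_X,
      Polynomial.map_C, Polynomial.map_neg, map_neg] using h1
  · rw [← algebraMap_smul K t y, S_line C hTx]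
    simp only [map_add, map_mul, map_pow, map_neg, he0, he1, he2]
  · rw [← algebraMap_smul K t y, N_line]
    simp only [map_add, map_mul, map_pow, hn0, hn1, hn2, hn3]

end line

section main

variable {k K D : Type} [Field k] [NumberField k] [Field K] [NumberField K] [StarRing K]
  [DivisionRing D] [StarRing D] [Algebra k K] [Algebra k D] [Algebra K D] [IsScalarTower k K D]
  {d : kˣ} {s : K}

/-- **The common field.** -/
theorem common_of (hS : Setting k K D d s) (hdeg : finrank K D = 3 ^ 2) (C : Cub K D)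
    (hRT : ∀ {P : Set (HeightOneSpectrum (𝓞 k))}, P.Finite →
      (∀ v ∈ P, (Sum.inl v : Pl k) ∉ Tdiv k K D) → ∀ a1 : D,
      ∃ a : D, star a = a ∧ C.T a = 0 ∧ C.S a ≠ 0 ∧ (∀ c : k, a ≠ c • a1) ∧
        ∀ v ∈ P, ∃ n e : k, algebraMap k K n = C.N a ∧ algebraMap k K e = C.S a ∧
          v.valuation k (n ^ 2) < v.valuation k (e ^ 3))
    (hS1 : ∀ {h : D} {V : HeightOneSpectrum (𝓞 K)} {b : K}, h ∉ Set.range (algebraMap K D) →
      C.T h = 0 → V.valuation K 3 = 1 → V.valuation K (C.S h) ≤ 1 → V.valuation K (C.N h) = 1 →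
      V.valuation K b = 1 → LocD C h V b)
    (hS1c : ∀ {h : D} {V : HeightOneSpectrum (𝓞 K)} {b : K}, C.T h = 0 →
      V.valuation K (C.N h) ^ 2 < V.valuation K (C.S h) ^ 3 → b ≠ 0 → LocD C h V b)
    {zs : Set K} (hzs : zs.Finite) (hz0 : ∀ z ∈ zs, z ≠ 0)
    (hzT : ∀ z ∈ zs, ∀ v : HeightOneSpectrum (𝓞 k), (Sum.inl v : Pl k) ∈ Tdiv k K D →
      ∀ V : HeightOneSpectrum (𝓞 K), V.asIdeal.comap (algebraMap (𝓞 k) (𝓞 K)) = v.asIdeal →
      ∃ c : K, V.valuation K (z / c ^ 3 - 1) < V.valuation K 9) :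
    ∃ a : D, star a = a ∧ a ∉ Set.range (algebraMap K D) ∧ C.T a = 0 ∧
      ∀ z ∈ zs, ∀ V : HeightOneSpectrum (𝓞 K), LocD C a V z := by
  classical
  set Td : Set (HeightOneSpectrum (𝓞 k)) := {v | (Sum.inl v : Pl k) ∈ Tdiv k K D} with hTd
  -- the bad set of the elements
  have hB : ({V : HeightOneSpectrum (𝓞 K) | V.valuation K (3 : K) ≠ 1} ∪
      ⋃ z ∈ zs, {V : HeightOneSpectrum (𝓞 K) | V.valuation K z ≠ 1}).Finite :=
    (H321.Avoid.hos_finite (R := 𝓞 K) (by norm_num)).union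
      (hzs.biUnion fun z hz => H321.Avoid.hos_finite (R := 𝓞 K) (hz0 z hz))
  set BK := ({V : HeightOneSpectrum (𝓞 K) | V.valuation K (3 : K) ≠ 1} ∪
      ⋃ z ∈ zs, {V : HeightOneSpectrum (𝓞 K) | V.valuation K z ≠ 1}) with hBK
  choose bel hbel using fun V : HeightOneSpectrum (𝓞 K) => exists_below (F := k) V
  set P : Set (HeightOneSpectrum (𝓞 k)) := bel '' BK with hPdef
  have hP : P.Finite := hB.image _
  -- the first point
  obtain ⟨x, hx, hTx, hSx, hx0, -⟩ := hRT (Set.finite_empty (α := HeightOneSpectrum (𝓞 k)))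
    (fun v hv => absurd hv (Set.notMem_empty v)) 0
  have := hS.fin
  have := hS.cen
  have hSC : SCub C := sCub_of C hdeg hS.star_smul
  have hxne : x ≠ 0 := by
    have := hx0 0
    rwa [zero_smul] at this
  obtain ⟨n0, hn0⟩ := (hS.fix _).mp (hSC.N_symm hx)
  obtain ⟨e0, he0⟩ := (hS.fix _).mp (hSC.S_symm hx)
  have hn0' : n0 ≠ 0 := by
    rintro rfl
    rw [map_zero] at hn0
    exact C.N_ne_zero hxne hn0.symm
  set Q : Set (HeightOneSpectrum (𝓞 k)) := (P ∪ ({v | v.valuation k n0 ≠ 1} ∪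
    {v | 1 < v.valuation k e0})) \ Td with hQ
  have hQf : Q.Finite := ((hP.union ((H321.Avoid.hos_finite (R := 𝓞 k) hn0').union
    (HeightOneSpectrum.Support.finite (𝓞 k) e0))).subset Set.sdiff_subset)
  obtain ⟨y, hy, hTy, hSy, hyx, hyr⟩ := hRT hQf (fun v hv => hv.2) x
  have hy0 : y ≠ 0 := by
    have := hyx 0
    rwa [zero_smul] at this
  have hli : ∀ c : k, x ≠ c • y := by
    intro c hc
    have hc0 : c ≠ 0 := by
      rintro rfl
      rw [zero_smul] at hc
      exact hxne hc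
    apply hyx c⁻¹
    rw [hc, smul_smul, inv_mul_cancel₀ hc0, one_smul]
  obtain ⟨e0', e1, e2, n0', n1, n2, n3, he0', he2, hn0'', hn3, hco, hval⟩ :=
    exists_line hS hdeg C hx hy hTx hTy hSy hli
  have hinj : Function.Injective (algebraMap k K) := (algebraMap k K).injective
  obtain rfl : e0' = e0 := hinj (he0'.trans he0.symm)
  obtain rfl : n0' = n0 := hinj (hn0''.trans hn0.symm)
  have hn3' : n3 ≠ 0 := by
    rintro rfl
    rw [map_zero] at hn3
    exact C.N_ne_zero hy0 hn3.symm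
  obtain ⟨t, ht0, ht⟩ := exists_t (Td := Td) hn0' hn3' hco hP (by
    intro v hv hvP
    obtain ⟨n, e, hn, he, hlt⟩ := hyr v ⟨hvP, hv⟩
    obtain rfl : n = n3 := hinj (hn.trans hn3.symm)
    obtain rfl : e = e2 := hinj (he.trans he2.symm)
    rwa [map_pow, map_pow] at hlt)
  obtain ⟨hSa, hNa⟩ := hval t
  set a : D := x + t • y with ha
  have hTa : C.T a = 0 := by
    rw [ha, map_add, ← algebraMap_smul K t y, map_smul, hTx, hTy, smul_zero, add_zero]
  have hsa : star a = a := by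
    rw [ha, star_add, hx, ← algebraMap_smul K t y, hS.star_smul, hy, (hS.fix _).mpr ⟨t, rfl⟩]
  have hane : a ≠ 0 := by
    intro h0
    apply hli (-t)
    rw [neg_smul]
    exact eq_neg_of_add_eq_zero_left h0
  have hacen : a ∉ Set.range (algebraMap K D) := by
    rintro ⟨c, hc⟩
    apply hane
    have h1 : C.T a = 3 * c := by
      rw [← hc, Algebra.algebraMap_eq_smul_one, map_smul, C.T_one, smul_eq_mul, mul_comm]
    rw [hTa] at h1
    have h2 : c = 0 := by
      have := (mul_eq_zero.mp h1.symm).resolve_left (by norm_num)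
      exact this
    rw [← hc, h2, map_zero]
  refine ⟨a, hsa, hacen, hTa, fun z hz V => ?_⟩
  have hbV := hbel V
  by_cases hvT : bel V ∈ Td
  · obtain ⟨c, hc⟩ := hzT z hz (bel V) hvT V hbV
    exact locD_of_cube hc
  rcases ht (bel V) hvT with h | ⟨hvP, c, hc0, hc1, hc2⟩
  · refine hS1c hTa ?_ (hz0 z hz)
    rw [← hSa, ← hNa, ← map_pow, ← map_pow, ← map_pow, ← map_pow, val_lt_val_iff hbV, map_pow,
      map_pow]
    exact h
  · have hVB : V ∉ BK := fun h => hvP ⟨V, h, rfl⟩
    simp only [hBK, Set.mem_union, Set.mem_iUnion, Set.mem_ofPred_eq, not_or, not_exists,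
      not_not] at hVB
    have hc' : algebraMap k K c ≠ 0 := fun h0 => hc0 (hinj (by rw [h0, map_zero]))
    refine locD_smul (c := algebraMap k K c) (hS1 ?_ ?_ hVB.1 ?_ ?_ (hVB.2 z hz))
    · rintro ⟨c', hc''⟩
      apply hacen
      refine ⟨(algebraMap k K c)⁻¹ * c', ?_⟩
      rw [map_mul, hc'', ← Algebra.smul_def, smul_smul, inv_mul_cancel₀ hc', one_smul]
    · rw [map_smul, hTa, smul_zero]
    · rw [C.S_smul, ← hSa, ← map_pow, ← map_mul, val_le_one_iff hbV]
      exact hc1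
    · rw [C.N_smul, ← hNa, ← map_pow, ← map_mul, val_eq_one_iff hbV]
      exact hc2

end main

end Vale.Agent.P011.H124
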