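import Vale.Agent.P011.H124.E2v
import Vale.Agent.P011.H271.ConF3

/-!
The choice of the parameter on a line `s₁ + t s₂` over a function field: good at all places
outside a given set.
-/

open Polynomial
open scoped NNReal

namespace Vale.Agent.P011.H124

open Vale.Agent.P011.H738 Vale.Agent.P011.H271

section ff

variable {k : Type} [Field k] [GFF k]

theorem exists_tF (v0 : Place k) {e0 e1 e2 n0 n1 n2 n3 : k} (hn0 : n0 ≠ 0) (hn3 : n3 ≠ 0)
    (hco : IsCoprime (C e0 + C e1 * X + C e2 * X ^ 2)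
      (C n0 + C n1 * X + C n2 * X ^ 2 + C n3 * X ^ 3))
    {Td P : Set (Place k)} (hP : P.Finite)
    (hr : ∀ v : Place k, v ∉ Td → (v ∈ P ∨ v.abv n0 ≠ 1 ∨ 1 < v.abv e0) →
      v.abv n3 ^ 2 < v.abv e2 ^ 3) :
    ∃ t : k, t ≠ 0 ∧ ∀ v : Place k, v ∉ Td →
      v.abv (n0 + t * n1 + t ^ 2 * n2 + t ^ 3 * n3) ^ 2 < v.abv (e0 + t * e1 + t ^ 2 * e2) ^ 3 ∨
      (v ∉ P ∧ ∃ c : k, c ≠ 0 ∧ v.abv (c ^ 2 * (e0 + t * e1 + t ^ 2 * e2)) ≤ 1 ∧
        v.abv (c ^ 3 * (n0 + t * n1 + t ^ 2 * n2 + t ^ 3 * n3)) = 1) := by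
  classical
  set pe : k[X] := C e0 + C e1 * X + C e2 * X ^ 2 with hpe
  set pn : k[X] := C n0 + C n1 * X + C n2 * X ^ 2 + C n3 * X ^ 3 with hpn
  have hspan : Ideal.span (Set.range ![pe, pn]) = ⊤ := by
    rw [Matrix.range_cons, Matrix.range_cons, Matrix.range_empty, Set.union_empty,
      Set.singleton_union]
    exact Ideal.isCoprime_span_singleton_iff _ _ |>.mpr hco |> fun h => by
      rw [Ideal.span_insert]; exact Ideal.isCoprime_iff_sup_eq.mp h
  obtain ⟨S, hS, hu⟩ := ConF.exists_unit ![pe, pn] hspan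
  have hS2 := ConF.intAt_finite pe
  have hS3 := ConF.intAt_finite pn
  have hS4 := place_finite hn3
  have hQ1 := place_finite hn0
  have hQ2 : {v : Place k | 1 < v.abv e0}.Finite := by
    by_cases he0 : e0 = 0
    · refine Set.Finite.subset Set.finite_empty fun v hv => ?_
      rw [Set.mem_ofPred_eq, he0, map_zero] at hv
      exact absurd hv (by norm_num)
    · exact (place_finite he0).subset fun v hv => ne_of_gt hv
  set Q : Set (Place k) := P ∪ ({v | v.abv n0 ≠ 1} ∪ {v | 1 < v.abv e0}) with hQdef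
  have hQ : Q.Finite := hP.union (hQ1.union hQ2)
  set S4 := S ∪ {v | ¬ ConF.IntAt (ConF.vr v) pe} ∪ {v | ¬ ConF.IntAt (ConF.vr v) pn} ∪
    {v | v.abv n3 ≠ 1} with hS4def
  have hSf : S4.Finite := ((hS.union hS2).union hS3).union hS4
  have hroot : ∀ (v : Place k) (e n : k), ConF.vr v n ^ 2 < ConF.vr v e ^ 3 ↔
      v.abv n ^ 2 < v.abv e ^ 3 := by
    intro v e n
    rw [← NNReal.coe_lt_coe, NNReal.coe_pow, NNReal.coe_pow, ConF.coe_vr, ConF.coe_vr]
  have hex : ∀ v : Place k, ∃ γ : ℝ,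
      (v ∈ S4 \ Q → 0 < γ ∧ ∀ t : k, v.abv t < γ →
        v.abv (e0 + t * e1 + t ^ 2 * e2) ≤ 1 ∧
        v.abv (n0 + t * n1 + t ^ 2 * n2 + t ^ 3 * n3) = 1) ∧
      (v ∈ Q → v ∉ Td → ∀ t : k, γ < v.abv t →
        v.abv (n0 + t * n1 + t ^ 2 * n2 + t ^ 3 * n3) ^ 2 <
        v.abv (e0 + t * e1 + t ^ 2 * e2) ^ 3) := by
    intro v
    by_cases hv : v ∈ Q
    · by_cases hT : v ∈ Td
      · exact ⟨1, fun h => absurd hv h.2, fun _ h => absurd hT h⟩
      · obtain ⟨γ, h⟩ := near_inf (v := ConF.vr v) e0 e1 e2 n0 n1 n2 n3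
          ((hroot v _ _).mpr (hr v hT hv))
        refine ⟨γ, fun h => absurd hv h.2, fun _ _ t ht => (hroot v _ _).mp (h t ?_)⟩
        rw [← NNReal.coe_lt_coe, ConF.coe_vr]
        exact ht
    · simp only [hQdef, Set.mem_union, Set.mem_ofPred_eq, not_or, not_not, not_lt] at hv
      obtain ⟨γ, h0, h⟩ := near_unit (v := ConF.vr v) e0 e1 e2 n0 n1 n2 n3
        (ConF.vr_le_one.mpr hv.2.2) (ConF.vr_eq_one.mpr hv.2.1)
      refine ⟨γ, fun _ => ⟨NNReal.coe_pos.mpr (pos_iff_ne_zero.mpr h0), fun t ht => ?_⟩,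
        fun h' => ?_⟩
      · have h1 := h t (by rw [← NNReal.coe_lt_coe, ConF.coe_vr]; exact ht)
        exact ⟨ConF.vr_le_one.mp h1.1, ConF.vr_eq_one.mp h1.2⟩
      exfalso
      simp only [hQdef, Set.mem_union, Set.mem_ofPred_eq] at h'
      rcases h' with h' | h' | h'
      · exact hv.1 h'
      · exact h' hv.2.1
      · exact absurd h' (not_lt.mpr hv.2.2)
  choose γ hγT hγQ using hex
  obtain ⟨t, -, ht0, h1, h2⟩ := ConF.exists_param hQ
    (hSf.subset Set.sdiff_subset : (S4 \ Q).Finite) v0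
    Set.finite_empty γ (fun v hv => (hγT v hv).1)
  refine ⟨t, ht0, fun v hv => ?_⟩
  by_cases hvQ : v ∈ Q
  · exact Or.inl (hγQ v hvQ hv t (h2 v hvQ fun h => h.2 hvQ))
  have hvP : v ∉ P := fun h => hvQ (Or.inl h)
  by_cases hvS : v ∈ S4
  · obtain ⟨h3, h4⟩ := (hγT v ⟨hvS, hvQ⟩).2 t (h1 v ⟨hvS, hvQ⟩)
    exact Or.inr ⟨hvP, 1, one_ne_zero, by simpa using h3, by simpa using h4⟩
  · simp only [hS4def, Set.mem_union, Set.mem_ofPred_eq, not_or, not_not] at hvS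
    obtain ⟨⟨⟨h5, h6⟩, h7⟩, h8⟩ := hvS
    have ce0 : pe.coeff 0 = e0 := by simp [hpe]
    have ce1 : pe.coeff 1 = e1 := by simp [hpe]
    have ce2 : pe.coeff 2 = e2 := by simp [hpe]
    have cn0 : pn.coeff 0 = n0 := by simp [hpn]
    have cn1 : pn.coeff 1 = n1 := by simp [hpn]
    have cn2 : pn.coeff 2 = n2 := by simp [hpn]
    have := good_all (v := ConF.vr v) (e0 := e0) (e1 := e1) (e2 := e2) (n0 := n0) (n1 := n1)
      (n2 := n2) (n3 := n3) (ce0 ▸ h6 0) (ce1 ▸ h6 1) (ce2 ▸ h6 2) (cn0 ▸ h7 0) (cn1 ▸ h7 1)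
      (cn2 ▸ h7 2) (ConF.vr_eq_one.mpr h8) (by
        intro t ht
        obtain ⟨j, hj⟩ := hu v h5 t ht
        fin_cases j
        · left
          convert hj using 2
          simp [hpe]
          ring
        · right
          convert hj using 2
          simp [hpn]
          ring) t
    rcases this with h | ⟨c, hc0, hc1, hc2⟩
    · exact Or.inl ((hroot v _ _).mp h)
    · exact Or.inr ⟨hvP, c, hc0, ConF.vr_le_one.mp hc1, ConF.vr_eq_one.mp hc2⟩

end ff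

end Vale.Agent.P011.H124
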