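import Vale.Agent.P011.H124.E2a
import Vale.Agent.P011.H124.E2tF
import Vale.Agent.P011.H305.SetF
import Vale.Agent.P011.Hey.H63.PlaceRes
import Vale.Agent.P011.H738.LocDF2

/-!
**A common cubic field** over function fields: `K(a)`, `a` symmetric of trace zero, for finitely
many elements of `K` which are cubes at the places where `D` is a division algebra: everywhere
locally they are norms from `K(a)`. The characteristic is not three.
-/

open Polynomial Module

namespace Vale.Agent.P011.H124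

open Vale.Agent.P011.H775 Vale.Agent.P011.H948 Vale.Agent.P011.H738 Vale.Agent.P011.H271
open Vale.Agent.P011.H305

section scale

variable {K D : Type} [Field K] [Ring D] [Algebra K D]

/-- The local condition only depends on the line spanned by `h`. -/
theorem locDF_smul {C : Cub K D} {h : D} {V : Place K} {b : K} {c : K}
    (hl : LocDF C (c • h) V b) : LocDF C h V b := by
  obtain ⟨e, he⟩ := hl
  refine ⟨![e 0, e 1 * c, e 2 * c ^ 2], ?_⟩
  have e1 : e 0 • (1 : D) + e 1 • c • h + e 2 • (c • h * c • h) =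
      e 0 • (1 : D) + (e 1 * c) • h + (e 2 * c ^ 2) • (h * h) := by
    rw [smul_smul, smul_mul_smul_comm, smul_smul, sq]
  rw [e1] at he
  exact he

/-- Cubes are norms. -/
theorem locDF_of_cube {C : Cub K D} {h : D} {V : Place K} {b c : K}
    (hc : V.abv (b / c ^ 3 - 1) < 1) : LocDF C h V b := by
  refine ⟨![c, 0, 0], ?_⟩
  have e1 : (![c, 0, 0] : Fin 3 → K) 0 • (1 : D) + (![c, 0, 0] : Fin 3 → K) 1 • h +
      (![c, 0, 0] : Fin 3 → K) 2 • (h * h) = c • (1 : D) := by
    simp
  rw [e1, N_smul_one]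
  exact hc

end scale

section line

variable {k K D : Type} [Field k] [Field K] [StarRing K]
  [DivisionRing D] [StarRing D] [Algebra k K] [Algebra k D] [Algebra K D] [IsScalarTower k K D]
  {d : kˣ} {s : K}

/-- The two polynomials on a line over the ground field. -/
theorem exists_lineF (hS : SetF k K D d s) (hdeg : finrank K D = 3 ^ 2) (C : Cub K D) {x y : D}
    (hx : star x = x) (hy : star y = y) (hTx : C.T x = 0) (hTy : C.T y = 0) (hSy : C.S y ≠ 0)
    (hli : ∀ c : k, x ≠ c • y) : ∃ e0 e1 e2 n0 n1 n2 n3 : k,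
      algebraMap k K e0 = C.S x ∧ algebraMap k K e2 = C.S y ∧ algebraMap k K n0 = C.N x ∧
      algebraMap k K n3 = C.N y ∧
      IsCoprime (Polynomial.C e0 + Polynomial.C e1 * X + Polynomial.C e2 * X ^ 2)
        (Polynomial.C n0 + Polynomial.C n1 * X + Polynomial.C n2 * X ^ 2 +
          Polynomial.C n3 * X ^ 3) ∧
      ∀ t : k, algebraMap k K (e0 + t * e1 + t ^ 2 * e2) = C.S (x + t • y) ∧
        algebraMap k K (n0 + t * n1 + t ^ 2 * n2 + t ^ 3 * n3) = C.N (x + t • y) := by
  have := hS.fin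
  have := hS.cen
  have hSC : SCub C := sCub_of C hdeg hS.star_smul
  obtain ⟨e0, he0⟩ := (hS.fix _).mp (hSC.S_symm hx)
  obtain ⟨e2, he2⟩ := (hS.fix _).mp (hSC.S_symm hy)
  obtain ⟨e1, he1⟩ := (hS.fix _).mp (hSC.T_mul_symm hx hy)
  obtain ⟨n0, hn0⟩ := (hS.fix _).mp (hSC.N_symm hx)
  obtain ⟨n3, hn3⟩ := (hS.fix _).mp (hSC.N_symm hy)
  obtain ⟨n1, hn1⟩ := (hS.fix _).mp (hSC.T_mul_symm (hSC.adj_symm hx) hy)
  obtain ⟨n2, hn2⟩ := (hS.fix _).mp (hSC.T_mul_symm hx (hSC.adj_symm hy))
  have hy0 : y ≠ 0 := by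
    rintro rfl
    apply hSy
    rw [Cub.S, C.adj_zero, map_zero]
  have hliK : ∀ c : K, x ≠ c • y := by
    intro c hc
    have h1 : star c • y = c • y := by
      rw [← hc]
      conv_rhs => rw [← hx, hc, hS.star_smul, hy]
    have h2 : star c = c := by
      by_contra hne
      apply hy0
      have h3 : (star c - c) • y = 0 := by rw [sub_smul, h1, sub_self]
      exact (smul_eq_zero.mp h3).resolve_left (sub_ne_zero.mpr hne)
    obtain ⟨c', rfl⟩ := (hS.fix _).mp h2
    apply hli c'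
    rw [hc, algebraMap_smul]
  refine ⟨e0, -e1, e2, n0, n1, n2, n3, he0, he2, hn0, hn3, ?_, fun t => ⟨?_, ?_⟩⟩
  · have h1 := coprime_line C hdeg hTx hTy hSy hliK
    rw [← he0, ← he1, ← he2, ← hn0, ← hn1, ← hn2, ← hn3] at h1
    rw [← Polynomial.isCoprime_map (algebraMap k K)]
    simpa only [Polynomial.map_add, Polynomial.map_mul, Polynomial.map_pow, Polynomial.map_X,
      Polynomial.map_C, Polynomial.map_neg, map_neg] using h1
  · rw [← algebraMap_smul K t y, S_line C hTx]
    simp only [map_add, map_mul, map_pow, map_neg, he0, he1, he2]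
  · rw [← algebraMap_smul K t y, N_line]
    simp only [map_add, map_mul, map_pow, hn0, hn1, hn2, hn3]

end line

section crit

variable {K D : Type} [Field K] [GFF K] [Ring D] [Algebra K D] {C : Cub K D}

theorem loc_unitF (h30 : (3 : K) ≠ 0) {h : D} {V : Place K} {b : K} (hT : C.T h = 0)
    (hS : V.abv (C.S h) ≤ 1) (hN : V.abv (C.N h) = 1) (hb : V.abv b = 1) : LocDF C h V b := by
  refine LocDF.of_not_cube (by rw [hT, map_zero]; exact zero_le_one) hS hN.le hb ?_
  rintro ⟨c, -, h1, -, h2⟩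
  rw [hT, zero_sub, V.abv.map_neg, map_mul, abv_three h30, one_mul] at h1
  have h4 : V.abv (c ^ 3) < 1 := by
    rw [map_pow]
    exact pow_lt_one₀ (V.abv.nonneg _) h1 three_ne_zero
  have h5 := V.nonarch (C.N h - c ^ 3) (c ^ 3)
  rw [sub_add_cancel, hN] at h5
  exact absurd (h5.trans_lt (max_lt h2 h4)) (lt_irrefl _)

end crit

section main

variable {k K D : Type} [Field k] [GFF k] [Field K] [GFF K] [StarRing K]
  [DivisionRing D] [StarRing D] [Algebra k K] [Algebra k D] [Algebra K D] [IsScalarTower k K D]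
  {d : kˣ} {s : K}

/-- **The common field.** -/
theorem common_ofF (hS : SetF k K D d s) (h30 : (3 : k) ≠ 0) (hdeg : finrank K D = 3 ^ 2)
    (C : Cub K D)
    (hRT : ∀ {P : Set (Place k)}, P.Finite →
      (∀ v ∈ P, v ∉ Adiv k K D) → ∀ a1 : D,
      ∃ a : D, star a = a ∧ C.T a = 0 ∧ C.S a ≠ 0 ∧ (∀ c : k, a ≠ c • a1) ∧
        ∀ v ∈ P, ∃ n e : k, algebraMap k K n = C.N a ∧ algebraMap k K e = C.S a ∧
          v.abv n ^ 2 < v.abv e ^ 3)
    {zs : Set K} (hzs : zs.Finite) (hz0 : ∀ z ∈ zs, z ≠ 0)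
    (hzT : ∀ z ∈ zs, ∀ v ∈ Adiv k K D, ∀ V : Place K, (∃ c : ℝ, 0 < c ∧ ∀ x : k,
      V.abv (algebraMap k K x) = v.abv x ^ c) → ∃ c : K, V.abv (z / c ^ 3 - 1) < 1) :
    ∃ a : D, star a = a ∧ a ∉ Set.range (algebraMap K D) ∧ C.T a = 0 ∧
      ∀ z ∈ zs, ∀ V : Place K, LocDF C a V z := by
  classical
  obtain ⟨v0⟩ := Hey.nonempty_place k
  have : FiniteDimensional k K := Module.finite_of_finrank_pos (by rw [hS.rank]; norm_num)
  have h3 : (3 : K) ≠ 0 := by
    intro h
    apply h30
    apply (algebraMap k K).injective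
    rw [map_zero, ← h]
    exact map_ofNat (algebraMap k K) 3
  set Td : Set (Place k) := Adiv k K D with hTd
  have hB : (⋃ z ∈ zs, {V : Place K | V.abv z ≠ 1}).Finite :=
    hzs.biUnion fun z hz => place_finite (hz0 z hz)
  set BK := ⋃ z ∈ zs, {V : Place K | V.abv z ≠ 1} with hBK
  choose bel cc hcc hbel using fun V : Place K => Hey.H63.exists_below (k := k) V
  set P : Set (Place k) := bel '' BK with hPdef
  have hP : P.Finite := hB.image _
  -- the first point
  obtain ⟨x, hx, hTx, hSx, hx0, -⟩ := hRT (Set.finite_empty (α := Place k))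
    (fun v hv => absurd hv (Set.notMem_empty v)) 0
  have := hS.fin
  have := hS.cen
  have hSC : SCub C := sCub_of C hdeg hS.star_smul
  have hxne : x ≠ 0 := by
    have := hx0 0
    rwa [zero_smul] at this
  obtain ⟨n0, hn0⟩ := (hS.fix _).mp (hSC.N_symm hx)
  obtain ⟨e0, he0⟩ := (hS.fix _).mp (hSC.S_symm hx)
  have hn0' : n0 ≠ 0 := by
    rintro rfl
    rw [map_zero] at hn0
    exact C.N_ne_zero hxne hn0.symm
  have hQ2 : {v : Place k | 1 < v.abv e0}.Finite := by
    by_cases he0 : e0 = 0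
    · refine Set.Finite.subset Set.finite_empty fun v hv => ?_
      rw [Set.mem_ofPred_eq, he0, map_zero] at hv
      exact absurd hv (by norm_num)
    · exact (place_finite he0).subset fun v hv => ne_of_gt hv
  set Q : Set (Place k) := (P ∪ ({v | v.abv n0 ≠ 1} ∪ {v | 1 < v.abv e0})) \ Td with hQ
  have hQf : Q.Finite := (hP.union ((place_finite hn0').union hQ2)).subset Set.sdiff_subset
  obtain ⟨y, hy, hTy, hSy, hyx, hyr⟩ := hRT hQf (fun v hv => hv.2) x
  have hy0 : y ≠ 0 := by
    have := hyx 0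
    rwa [zero_smul] at this
  have hli : ∀ c : k, x ≠ c • y := by
    intro c hc
    have hc0 : c ≠ 0 := by
      rintro rfl
      rw [zero_smul] at hc
      exact hxne hc
    apply hyx c⁻¹
    rw [hc, smul_smul, inv_mul_cancel₀ hc0, one_smul]
  obtain ⟨e0', e1, e2, n0', n1, n2, n3, he0', he2, hn0'', hn3, hco, hval⟩ :=
    exists_lineF hS hdeg C hx hy hTx hTy hSy hli
  have hinj : Function.Injective (algebraMap k K) := (algebraMap k K).injective
  obtain rfl : e0' = e0 := hinj (he0'.trans he0.symm)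
  obtain rfl : n0' = n0 := hinj (hn0''.trans hn0.symm)
  have hn3' : n3 ≠ 0 := by
    rintro rfl
    rw [map_zero] at hn3
    exact C.N_ne_zero hy0 hn3.symm
  obtain ⟨t, ht0, ht⟩ := exists_tF v0 (Td := Td) hn0' hn3' hco hP (by
    intro v hv hvP
    obtain ⟨n, e, hn, he, hlt⟩ := hyr v ⟨hvP, hv⟩
    obtain rfl : n = n3 := hinj (hn.trans hn3.symm)
    obtain rfl : e = e2 := hinj (he.trans he2.symm)
    exact hlt)
  obtain ⟨hSa, hNa⟩ := hval t
  set a : D := x + t • y with ha
  have hTa : C.T a = 0 := by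
    rw [ha, map_add, ← algebraMap_smul K t y, map_smul, hTx, hTy, smul_zero, add_zero]
  have hsa : star a = a := by
    rw [ha, star_add, hx, ← algebraMap_smul K t y, hS.star_smul, hy, (hS.fix _).mpr ⟨t, rfl⟩]
  have hane : a ≠ 0 := by
    intro h0
    apply hli (-t)
    rw [neg_smul]
    exact eq_neg_of_add_eq_zero_left h0
  have hacen : a ∉ Set.range (algebraMap K D) := by
    rintro ⟨c, hc⟩
    apply hane
    have h1 : C.T a = 3 * c := by
      rw [← hc, Algebra.algebraMap_eq_smul_one, map_smul, C.T_one, smul_eq_mul, mul_comm]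
    rw [hTa] at h1
    have h2 : c = 0 := (mul_eq_zero.mp h1.symm).resolve_left h3
    rw [← hc, h2, map_zero]
  refine ⟨a, hsa, hacen, hTa, fun z hz V => ?_⟩
  have hbV := hbel V
  by_cases hvT : bel V ∈ Td
  · obtain ⟨c, hc⟩ := hzT z hz (bel V) hvT V ⟨cc V, hcc V, hbV⟩
    exact locDF_of_cube hc
  rcases ht (bel V) hvT with h | ⟨hvP, c, hc0, hc1, hc2⟩
  · refine LocDF.of_trace_zero (hz0 z hz) hTa ?_
    rw [← hSa, ← hNa, ← map_pow, ← map_pow, ← map_pow, ← map_pow, hbV, hbV]
    refine Real.rpow_lt_rpow ((bel V).abv.nonneg _) ?_ (hcc V)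
    rw [map_pow, map_pow]
    exact h
  · have hVB : V ∉ BK := fun h => hvP ⟨V, h, rfl⟩
    simp only [hBK, Set.mem_iUnion, Set.mem_ofPred_eq, not_exists, not_not] at hVB
    refine locDF_smul (c := algebraMap k K c) (loc_unitF h3 ?_ ?_ ?_ (hVB z hz))
    · rw [map_smul, hTa, smul_zero]
    · rw [C.S_smul, ← hSa, ← map_pow, ← map_mul, hbV]
      exact Real.rpow_le_one ((bel V).abv.nonneg _) hc1 (hcc V).le
    · rw [C.N_smul, ← hNa, ← map_pow, ← map_mul, hbV, hc2, Real.one_rpow]

end main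

end Vale.Agent.P011.H124
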