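import Vale.Agent.P011.H124.E2c
import Vale.Agent.P011.H373.S1

/-!
The common cubic field, with the local criteria of `H373.S1`.
-/

open NumberField IsDedekindDomain Polynomial Module

namespace Vale.Agent.P011.H124

open Vale.Agent.P011.H775 Vale.Agent.P011.H948 Vale.Agent.P011.Even Vale.Agent.P011.One
open Vale.Agent.P011.Arith Vale.Agent.P011.H487

section crit

variable {K D : Type} [Field K] [NumberField K] [DivisionRing D] [Algebra K D] {C : Cub K D}

theorem loc_unit {h : D} {V : HeightOneSpectrum (𝓞 K)} {b : K}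
    (hh : h ∉ Set.range (algebraMap K D)) (hT : C.T h = 0) (h3 : V.valuation K 3 = 1)
    (hS : V.valuation K (C.S h) ≤ 1) (hN : V.valuation K (C.N h) = 1)
    (hb : V.valuation K b = 1) : LocD C h V b := by
  refine H373.locD_notcube' C (fun c hc => hh ⟨c, ?_⟩) V h3 (by rw [hT, map_zero]; exact zero_le)
    hS hN.le ?_ hb
  · rw [hc, Algebra.algebraMap_eq_smul_one]
  · rintro ⟨c, -, h1, -, h2⟩
    rw [hT, zero_sub, Valuation.map_neg, map_mul, h3, one_mul] at h1
    have h4 : V.valuation K (c ^ 3) < V.valuation K (C.N h) := by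
      rw [hN, map_pow]
      exact pow_lt_one₀ zero_le h1 three_ne_zero
    rw [Valuation.map_sub_eq_of_lt_left _ h4, hN] at h2
    exact lt_irrefl _ h2

theorem loc_root {h : D} {V : HeightOneSpectrum (𝓞 K)} {b : K} (hT : C.T h = 0)
    (hN : V.valuation K (C.N h) ^ 2 < V.valuation K (C.S h) ^ 3) (hb : b ≠ 0) :
    LocD C h V b := by
  refine H373.locD_trace_zero C (fun c hc => ?_) V hT hN hb
  have h1 : C.T h = 3 * c := by
    rw [hc, map_smul, C.T_one, smul_eq_mul, mul_comm]
  rw [hT] at h1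
  have h2 : c = 0 := (mul_eq_zero.mp h1.symm).resolve_left (by norm_num)
  have h3 : C.S h = 0 := by
    rw [hc, h2, zero_smul, Cub.S, C.adj_zero, map_zero]
  rw [h3, map_zero, zero_pow three_ne_zero] at hN
  exact not_lt_zero hN

end crit

section main

variable {k K D : Type} [Field k] [NumberField k] [Field K] [NumberField K] [StarRing K]
  [DivisionRing D] [StarRing D] [Algebra k K] [Algebra k D] [Algebra K D] [IsScalarTower k K D]
  {d : kˣ} {s : K}

/-- **The common field**, from elements of root type. -/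
theorem common_of_rt (hS : Setting k K D d s) (hdeg : finrank K D = 3 ^ 2) (C : Cub K D)
    (hRT : ∀ {P : Set (HeightOneSpectrum (𝓞 k))}, P.Finite →
      (∀ v ∈ P, (Sum.inl v : Pl k) ∉ Tdiv k K D) → ∀ a1 : D,
      ∃ a : D, star a = a ∧ C.T a = 0 ∧ C.S a ≠ 0 ∧ (∀ c : k, a ≠ c • a1) ∧
        ∀ v ∈ P, ∃ n e : k, algebraMap k K n = C.N a ∧ algebraMap k K e = C.S a ∧
          v.valuation k (n ^ 2) < v.valuation k (e ^ 3))
    {zs : Set K} (hzs : zs.Finite) (hz0 : ∀ z ∈ zs, z ≠ 0)
    (hzT : ∀ z ∈ zs, ∀ v : HeightOneSpectrum (𝓞 k), (Sum.inl v : Pl k) ∈ Tdiv k K D →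
      ∀ V : HeightOneSpectrum (𝓞 K), V.asIdeal.comap (algebraMap (𝓞 k) (𝓞 K)) = v.asIdeal →
      ∃ c : K, V.valuation K (z / c ^ 3 - 1) < V.valuation K 9) :
    ∃ a : D, star a = a ∧ a ∉ Set.range (algebraMap K D) ∧ C.T a = 0 ∧
      ∀ z ∈ zs, ∀ V : HeightOneSpectrum (𝓞 K), LocD C a V z :=
  common_of hS hdeg C hRT loc_unit loc_root hzs hz0 hzT

end main

end Vale.Agent.P011.H124
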