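import Mathlib

/-!
Valuations of the pair `(S, N)` on a line `s₁ + t s₂` of elements of trace zero: the pair is
`(e₀ + t e₁ + t² e₂, n₀ + t n₁ + t² n₂ + t³ n₃)`.
-/

open Polynomial

namespace Vale.Agent.P011.H124

section valu

variable {k : Type*} [Field k] {Γ : Type*} [LinearOrderedCommGroupWithZero Γ] (v : Valuation k Γ)

/-- Root type, or integral with unit norm after scaling. -/
def GoodE (e n : k) : Prop :=
  v n ^ 2 < v e ^ 3 ∨ ∃ c : k, c ≠ 0 ∧ v (c ^ 2 * e) ≤ 1 ∧ v (c ^ 3 * n) = 1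

variable {v}

theorem goodE_of_unit {e n : k} (he : v e ≤ 1) (hn : v n ≤ 1) (h : 1 ≤ v e ∨ 1 ≤ v n) :
    GoodE v e n := by
  by_cases h1 : v n = 1
  · exact Or.inr ⟨1, one_ne_zero, by simpa using he, by simpa using h1⟩
  · have hn1 : v n < 1 := lt_of_le_of_ne hn h1
    have he1 : v e = 1 := by
      rcases h with h | h
      · exact le_antisymm he h
      · exact absurd h (not_le.mpr hn1)
    refine Or.inl ?_
    rw [he1, one_pow]
    exact pow_lt_one₀ zero_le hn1 two_ne_zero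

/-- A bound which makes finitely many products small. -/
theorem exists_gam {ι : Type*} (s : Finset ι) (a : ι → k) {δ : Γ} (hδ : δ ≠ 0) :
    ∃ γ : Γ, γ ≠ 0 ∧ γ ≤ 1 ∧ ∀ t : k, v t < γ → ∀ i ∈ s, v (t * a i) < δ := by
  classical
  induction s using Finset.induction_on with
  | empty => exact ⟨1, one_ne_zero, le_rfl, fun t _ i hi => absurd hi (Finset.notMem_empty i)⟩
  | insert j s _ ih =>
    obtain ⟨γ, h0, h1, h2⟩ := ih
    by_cases hj : v (a j) = 0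
    · refine ⟨γ, h0, h1, fun t ht i hi => ?_⟩
      rcases Finset.mem_insert.mp hi with rfl | hi
      · rw [map_mul, hj, mul_zero]
        exact zero_lt_iff.mpr hδ
      · exact h2 t ht i hi
    · refine ⟨min γ (δ / v (a j)), ?_, (min_le_left _ _).trans h1, fun t ht i hi => ?_⟩
      · rcases min_choice γ (δ / v (a j)) with h | h <;> rw [h]
        · exact h0
        · exact div_ne_zero hδ hj
      · rcases Finset.mem_insert.mp hi with rfl | hi
        · rw [map_mul]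
          exact (lt_div_iff₀ (zero_lt_iff.mpr hj)).mp (ht.trans_le (min_le_right _ _))
        · exact h2 t (ht.trans_le (min_le_left _ _)) i hi

theorem small_sum {δ : Γ} {t a b c : k} (ht : v t ≤ 1) (ha : v (t * a) < δ) (hb : v (t * b) < δ)
    (hc : v (t * c) < δ) : v (t * a + t ^ 2 * b + t ^ 3 * c) < δ := by
  have hb' : v (t ^ 2 * b) < δ := by
    have e : t ^ 2 * b = t * (t * b) := by ring
    rw [e, map_mul v t (t * b)]
    exact (mul_le_of_le_one_left zero_le ht).trans_lt hb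
  have hc' : v (t ^ 3 * c) < δ := by
    have e : t ^ 3 * c = t ^ 2 * (t * c) := by ring
    rw [e, map_mul v (t ^ 2) (t * c), map_pow]
    exact (mul_le_of_le_one_left zero_le (pow_le_one₀ zero_le ht)).trans_lt hc
  exact Valuation.map_add_lt _ (Valuation.map_add_lt _ ha hb') hc'

theorem small_sum2 {δ : Γ} {t a b : k} (ht : v t ≤ 1) (ha : v (t * a) < δ) (hb : v (t * b) < δ) :
    v (t * a + t ^ 2 * b) < δ := by
  have h0 : v (t * 0) < δ := by
    rw [mul_zero, map_zero]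
    exact lt_of_le_of_lt zero_le ha
  have := small_sum ht ha hb h0
  simpa using this

/-- Near a point with unit norm. -/
theorem near_unit (e0 e1 e2 n0 n1 n2 n3 : k) (he : v e0 ≤ 1) (hn : v n0 = 1) :
    ∃ γ : Γ, γ ≠ 0 ∧ ∀ t : k, v t < γ → v (e0 + t * e1 + t ^ 2 * e2) ≤ 1 ∧
      v (n0 + t * n1 + t ^ 2 * n2 + t ^ 3 * n3) = 1 := by
  obtain ⟨γ, h0, h1, h2⟩ := exists_gam (v := v) Finset.univ ![e1, e2, n1, n2, n3]
    (one_ne_zero (α := Γ))
  refine ⟨γ, h0, fun t ht => ?_⟩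
  have ht1 : v t ≤ 1 := ht.le.trans h1
  have h3 := h2 t ht
  have a0 : v (t * e1) < 1 := h3 0 (Finset.mem_univ _)
  have a1 : v (t * e2) < 1 := h3 1 (Finset.mem_univ _)
  have a2 : v (t * n1) < 1 := h3 2 (Finset.mem_univ _)
  have a3 : v (t * n2) < 1 := h3 3 (Finset.mem_univ _)
  have a4 : v (t * n3) < 1 := h3 4 (Finset.mem_univ _)
  constructor
  · rw [add_assoc]
    exact Valuation.map_add_le _ he (small_sum2 ht1 a0 a1).le
  · have h4 := small_sum ht1 a2 a3 a4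
    have e : n0 + t * n1 + t ^ 2 * n2 + t ^ 3 * n3 = n0 + (t * n1 + t ^ 2 * n2 + t ^ 3 * n3) := by
      ring
    rw [e, Valuation.map_add_eq_of_lt_left _ (by rw [hn]; exact h4), hn]

/-- Near a point of root type. -/
theorem near_root (e0 e1 e2 n0 n1 n2 n3 : k) (h : v n0 ^ 2 < v e0 ^ 3) :
    ∃ γ : Γ, γ ≠ 0 ∧ ∀ t : k, v t < γ →
      v (n0 + t * n1 + t ^ 2 * n2 + t ^ 3 * n3) ^ 2 < v (e0 + t * e1 + t ^ 2 * e2) ^ 3 := by
  have he0 : v e0 ≠ 0 := by
    intro h0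
    rw [h0, zero_pow three_ne_zero] at h
    exact absurd h (not_lt.mpr zero_le)
  set δ : Γ := min (v e0) (v e0 ^ 2) with hδ
  have hδ0 : δ ≠ 0 := by
    rcases min_choice (v e0) (v e0 ^ 2) with h | h <;> rw [hδ, h]
    · exact he0
    · exact pow_ne_zero 2 he0
  have hδ3 : δ ^ 2 ≤ v e0 ^ 3 := by
    rcases le_total (v e0) 1 with h1 | h1
    · calc δ ^ 2 ≤ (v e0 ^ 2) ^ 2 := pow_le_pow_left₀ zero_le (min_le_right _ _) 2
        _ = v e0 ^ 4 := by rw [← pow_mul]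
        _ ≤ v e0 ^ 3 := pow_le_pow_right_of_le_one' h1 (by norm_num)
    · calc δ ^ 2 ≤ v e0 ^ 2 := pow_le_pow_left₀ zero_le (min_le_left _ _) 2
        _ ≤ v e0 ^ 3 := pow_le_pow_right₀ h1 (by norm_num)
  obtain ⟨γ, h0, h1, h2⟩ := exists_gam (v := v) Finset.univ ![e1, e2, n1, n2, n3] hδ0
  refine ⟨γ, h0, fun t ht => ?_⟩
  have ht1 : v t ≤ 1 := ht.le.trans h1
  have h3 := h2 t ht
  have a0 : v (t * e1) < δ := h3 0 (Finset.mem_univ _)
  have a1 : v (t * e2) < δ := h3 1 (Finset.mem_univ _)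
  have a2 : v (t * n1) < δ := h3 2 (Finset.mem_univ _)
  have a3 : v (t * n2) < δ := h3 3 (Finset.mem_univ _)
  have a4 : v (t * n3) < δ := h3 4 (Finset.mem_univ _)
  have h4 : v (e0 + t * e1 + t ^ 2 * e2) = v e0 := by
    rw [add_assoc]
    exact Valuation.map_add_eq_of_lt_left _ ((small_sum2 ht1 a0 a1).trans_le (min_le_left _ _))
  have h5 := small_sum ht1 a2 a3 a4
  rw [h4]
  have e : n0 + t * n1 + t ^ 2 * n2 + t ^ 3 * n3 = n0 + (t * n1 + t ^ 2 * n2 + t ^ 3 * n3) := by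
    ring
  rw [e]
  rcases le_total (v (t * n1 + t ^ 2 * n2 + t ^ 3 * n3)) (v n0) with h6 | h6
  · exact (pow_le_pow_left₀ zero_le (Valuation.map_add_le v le_rfl h6) 2).trans_lt h
  · calc v (n0 + (t * n1 + t ^ 2 * n2 + t ^ 3 * n3)) ^ 2
        ≤ v (t * n1 + t ^ 2 * n2 + t ^ 3 * n3) ^ 2 :=
          pow_le_pow_left₀ zero_le (Valuation.map_add_le v h6 le_rfl) 2
      _ < δ ^ 2 := pow_lt_pow_left₀ h5 zero_le two_ne_zero
      _ ≤ v e0 ^ 3 := hδ3

/-- Near infinity, when the direction is of root type. -/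
theorem near_inf (e0 e1 e2 n0 n1 n2 n3 : k) (h : v n3 ^ 2 < v e2 ^ 3) :
    ∃ γ : Γ, ∀ t : k, γ < v t →
      v (n0 + t * n1 + t ^ 2 * n2 + t ^ 3 * n3) ^ 2 < v (e0 + t * e1 + t ^ 2 * e2) ^ 3 := by
  obtain ⟨γ, h0, h1⟩ := near_root e2 e1 e0 n3 n2 n1 n0 h
  refine ⟨γ⁻¹, fun t ht => ?_⟩
  have ht0' : v t ≠ 0 := ((zero_lt_iff.mpr (inv_ne_zero h0)).trans ht).ne'
  have ht0 : t ≠ 0 := (Valuation.ne_zero_iff v).mp ht0'
  have h2 := h1 t⁻¹ (by
    rw [map_inv₀]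
    exact (inv_lt_comm₀ (zero_lt_iff.mpr h0) (zero_lt_iff.mpr ht0')).mp ht)
  have e1' : n0 + t * n1 + t ^ 2 * n2 + t ^ 3 * n3 =
      t ^ 3 * (n3 + t⁻¹ * n2 + t⁻¹ ^ 2 * n1 + t⁻¹ ^ 3 * n0) := by
    field_simp
    ring
  have e2' : e0 + t * e1 + t ^ 2 * e2 = t ^ 2 * (e2 + t⁻¹ * e1 + t⁻¹ ^ 2 * e0) := by
    field_simp
    ring
  rw [e1', e2', map_mul, map_mul, mul_pow, mul_pow, map_pow, map_pow, ← pow_mul, ← pow_mul]
  exact mul_lt_mul_of_pos_left h2 (pow_pos (zero_lt_iff.mpr ht0') 6)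

/-- Integral coefficients, no common zero, unit leading coefficient: good for all `t`. -/
theorem good_all {e0 e1 e2 n0 n1 n2 n3 : k} (h0 : v e0 ≤ 1) (h1 : v e1 ≤ 1) (h2 : v e2 ≤ 1)
    (h3 : v n0 ≤ 1) (h4 : v n1 ≤ 1) (h5 : v n2 ≤ 1) (h6 : v n3 = 1)
    (hu : ∀ t : k, v t ≤ 1 → 1 ≤ v (e0 + t * e1 + t ^ 2 * e2) ∨
      1 ≤ v (n0 + t * n1 + t ^ 2 * n2 + t ^ 3 * n3)) (t : k) :
    GoodE v (e0 + t * e1 + t ^ 2 * e2) (n0 + t * n1 + t ^ 2 * n2 + t ^ 3 * n3) := by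
  have key : ∀ {a b c : k} (ht : v t ≤ 1), v a ≤ 1 → v b ≤ 1 → v c ≤ 1 →
      v (a + t * b + t ^ 2 * c) ≤ 1 := by
    intro a b c ht ha hb hc
    refine Valuation.map_add_le _ (Valuation.map_add_le _ ha ?_) ?_
    · rw [map_mul]; exact mul_le_one' ht hb
    · rw [map_mul, map_pow]; exact mul_le_one' (pow_le_one' ht 2) hc
  rcases le_or_gt (v t) 1 with ht | ht
  · refine goodE_of_unit (key ht h0 h1 h2) ?_ (hu t ht)
    refine Valuation.map_add_le _ (key ht h3 h4 h5) ?_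
    rw [map_mul, map_pow]
    exact mul_le_one' (pow_le_one' ht 3) h6.le
  · have ht0' : v t ≠ 0 := (zero_lt_one.trans ht).ne'
    have ht0 : t ≠ 0 := (Valuation.ne_zero_iff v).mp ht0'
    have hi : v t⁻¹ ≤ 1 := by
      rw [map_inv₀]
      exact inv_le_one_of_one_le₀ ht.le
    have hi1 : v t⁻¹ < 1 := by
      rw [map_inv₀]
      exact inv_lt_one_of_one_lt₀ ht
    refine Or.inr ⟨t⁻¹, inv_ne_zero ht0, ?_, ?_⟩
    · have e : t⁻¹ ^ 2 * (e0 + t * e1 + t ^ 2 * e2) = e2 + t⁻¹ * e1 + t⁻¹ ^ 2 * e0 := by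
        field_simp
        ring
      rw [e]
      refine Valuation.map_add_le _ (Valuation.map_add_le _ h2 ?_) ?_
      · rw [map_mul]; exact mul_le_one' hi h1
      · rw [map_mul, map_pow]; exact mul_le_one' (pow_le_one' hi 2) h0
    · have e : t⁻¹ ^ 3 * (n0 + t * n1 + t ^ 2 * n2 + t ^ 3 * n3) =
          n3 + (t⁻¹ * n2 + t⁻¹ ^ 2 * n1 + t⁻¹ ^ 3 * n0) := by
        field_simp
        ring
      have hs : ∀ {a : k}, v a ≤ 1 → v (t⁻¹ * a) < 1 := by
        intro a ha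
        rw [map_mul]
        exact (mul_le_of_le_one_right zero_le ha).trans_lt hi1
      rw [e, Valuation.map_add_eq_of_lt_left _ (by
        rw [h6]; exact small_sum hi (hs h5) (hs h4) (hs h3)), h6]

end valu

end Vale.Agent.P011.H124
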