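import Vale.Agent.P011.H518.Pair
import Vale.Agent.P011.H872.RootType
import Vale.Agent.P011.H698.TorNF

/-!
**Two commuting unitary elements close to one with given reduced norms**, over number fields.
-/

open Module NumberField IsDedekindDomain

namespace Vale.Agent.P011.H518

open Vale.Agent.P011.Arith Vale.Agent.P011.Even Vale.Agent.P011.Two Vale.Agent.P011.One
open Vale.Agent.P011.H487

variable {k K D : Type} [Field k] [NumberField k] [Field K] [NumberField K] [StarRing K]
  [DivisionRing D] [StarRing D] [Algebra k K] [Algebra k D] [Algebra K D] [IsScalarTower k K D]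
  {Ω : Type} [Field Ω] [Algebra K Ω] {N : ℕ} {d : kˣ} {s : K}

/-- `Pr` over number fields, without hypotheses. -/
theorem pr_nf (hS : Setting k K D d s) (hdeg : finrank K D = 3 ^ 2) (C : H775.Cub K D)
    (f : D →ₐ[K] Matrix (Fin 3) (Fin 3) Ω) (B : Basis (Fin N) k D)
    (hTf : (Tdiv k K D).Finite) : Pr k f B :=
  pr_of' hS hdeg C f B hTf
    (fun hP hPT a1 => H872.exists_root_type hS hdeg C hP hPT a1)
    (H698.s7_nf hS hdeg C f B hTf)

end Vale.Agent.P011.H518
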