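import Vale.Agent.P011.Three.Core
import Vale.Agent.P011.H305.SetF

/-!
**Rank two over function fields: the planes and the property `HQ`.**

The letters of `Two/Defs`, `Two/Step`, `Two/HQCore`, `Two/MainTwo` without number fields. The local
condition on the elements of the planes is an arbitrary predicate `P`.
-/

open Module

set_option linter.unusedSectionVars false

namespace Vale.Agent.P011.H124.R4

open Vale.Agent.P011.Arith Vale.Agent.P011.Even Vale.Agent.P011.MPQ
open Vale.Agent.P011.Two Vale.Agent.P011.H305 Vale.Agent.P011.H271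

/-- A condition on an element `x` of a field `F` with respect to the quaternion algebra `(a, b)`:
it is used for `x` is small at the places where `(a, b)` ramifies. -/
abbrev Cond : Type 1 := ∀ (F : Type) [Field F] [GFF F], Fˣ → Fˣ → F → Prop

variable {k K D : Type} [Field k] [Field K] [StarRing K]
  [DivisionRing D] [StarRing D] [Algebra k K] [Algebra k D] [Algebra K D] [IsScalarTower k K D]

/-- The plane element: `u` acts on the plane spanned over `F(s)` by the unit vector `y` and the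
orthogonal vector `w` of length `b` as the quaternion `p + q j`. -/
structure PlaneEltF (d : kˣ) (s : K) (g : D) {F : Type} [Field F] [Algebra k F]
    (ι : F →ₐ[k] D) (b : Fˣ) (p₀ p₁ q₀ q₁ : F) (y w : D × D)
    (u : (D × D) ≃ₗ[D] (D × D)) : Prop where
  sym : ∀ x, star (ι x) = ι x
  yy : hh g y y = 1
  yw : hh g y w = 0
  ww : hh g w w = ι b
  nrm : p₀ ^ 2 - algebraMap k F d * p₁ ^ 2 + b * (q₀ ^ 2 - algebraMap k F d * q₁ ^ 2) = 1
  uy : u y = (ι p₀ + ι p₁ * algebraMap K D s) • y + (ι q₀ + ι q₁ * algebraMap K D s) • w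
  uw : u w = (-(ι b * (ι q₀ - ι q₁ * algebraMap K D s))) • y +
    (ι p₀ - ι p₁ * algebraMap K D s) • w

/-- The subgroup `N` contains the elements of the planes which satisfy the condition. -/
def HQF (P : Cond) (d : kˣ) (s : K) (g : D) (N : Subgroup ((D × D) ≃ₗ[D] (D × D))) : Prop :=
  ∀ (F : Type) [Field F] [GFF F] [Algebra k F] (ι : F →ₐ[k] D) (b : Fˣ)
    (p₀ p₁ q₀ q₁ : F) (y w : D × D) (u : (D × D) ≃ₗ[D] (D × D)),
    PlaneEltF d s g ι b p₀ p₁ q₀ q₁ y w u → P F (inc k F d) (-b) (2 - 2 * p₀) → u ∈ N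

/-- The input for quaternion algebras: characters of prime order are trivial on the elements which
satisfy the condition. -/
def MPQF (P : Cond) : Prop :=
  ∀ (l : ℕ) (_ : l.Prime) (F : Type) [Field F] [GFF F] (_ : (2 : F) ≠ 0) (a b : Fˣ)
    (_ : Aniso a b) (c : SL1 a b →* Multiplicative (ZMod l)) (x : SL1 a b),
    P F a b (nrd (((x : (Qt a b)ˣ) : Qt a b) - 1)) → c x = 1

/-- The statement of block 2T. -/
def TransF (P : Cond) : Prop :=
  ∀ (k K D : Type) [Field k] [GFF k] [Field K] [StarRing K]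
    [DivisionRing D] [StarRing D] [Algebra k K] [Algebra k D] [Algebra K D] [IsScalarTower k K D]
    (d : kˣ) (s : K) (_ : SetF k K D d s) (n : ℕ) (_ : 2 ≤ n) (_ : finrank K D = n ^ 2)
    (g : D) (_ : star g = g) (_ : An g)
    (N : Subgroup ((D × D) ≃ₗ[D] (D × D))) (_ : ∀ v ∈ Uh g, ∀ x ∈ N, v * x * v⁻¹ ∈ N)
    (_ : HQF P d s g N) (y : D × D) (_ : hh g y y = 1),
    ∃ u ∈ N, ∃ δ : D, δ ≠ 0 ∧ u e₁ = δ • y

/-- The statement of block 2G. -/
def MatchedF (P : Cond) : Prop :=
  ∀ (k K D : Type) [Field k] [GFF k] [Field K] [StarRing K]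
    [DivisionRing D] [StarRing D] [Algebra k K] [Algebra k D] [Algebra K D] [IsScalarTower k K D]
    (d : kˣ) (s : K) (_ : SetF k K D d s) (n : ℕ) (_ : 2 ≤ n) (_ : finrank K D = n ^ 2)
    (g : D) (_ : star g = g) (_ : An g)
    (N : Subgroup ((D × D) ≃ₗ[D] (D × D))) (_ : HQF P d s g N) (t : D) (_ : t * star t = 1),
    ∃ t' : D, ∃ u ∈ N, IsDiag t t' u

/-- The elements of norm one of the quaternion algebras attached to planes: the condition does
not mention the involution. -/
def PlaneInF (d : kˣ) (s : K) (U G₀ : Subgroup ((D × D) ≃ₗ[D] (D × D))) : Prop :=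
  ∀ (F : Type) [Field F] [GFF F] [Algebra k F] (ι : F →ₐ[k] D) (b : Fˣ)
    (p₀ p₁ q₀ q₁ : F) (y w : D × D) (u : (D × D) ≃ₗ[D] (D × D)),
    (∀ x, ∃ a c : D, x = a • y + c • w) →
    p₀ ^ 2 - algebraMap k F d * p₁ ^ 2 + b * (q₀ ^ 2 - algebraMap k F d * q₁ ^ 2) = 1 →
    u y = (ι p₀ + ι p₁ * algebraMap K D s) • y + (ι q₀ + ι q₁ * algebraMap K D s) • w →
    u w = (-(ι b * (ι q₀ - ι q₁ * algebraMap K D s))) • y +
      (ι p₀ - ι p₁ * algebraMap K D s) • w → u ∈ U → u ∈ G₀

variable {d : kˣ} {s : K}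

theorem star_sDF (hS : SetF k K D d s) : star (algebraMap K D s) = -algebraMap K D s := by
  rw [Algebra.algebraMap_eq_smul_one, hS.star_smul, hS.star_s, star_one, neg_smul]

theorem sq_sDF (hS : SetF k K D d s) :
    algebraMap K D s * algebraMap K D s = algebraMap k D d := by
  rw [← map_mul, ← sq, hS.sq, ← IsScalarTower.algebraMap_apply]

theorem setting_twistF (hS : SetF k K D d s) {g : D} (hg : star g = g) (hg0 : g ≠ 0) :
    @SetF k K D _ _ _ _ (twistStar hg hg0) _ _ d s := by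
  refine @SetF.mk k K D _ _ _ _ (twistStar hg hg0) _ _ d s hS.sq hS.star_s hS.ns hS.fix
    hS.rank hS.fin hS.cen ?_
  intro x y
  change g * star (x • y) * g⁻¹ = star x • (g * star y * g⁻¹)
  rw [hS.star_smul, mul_smul_comm, smul_mul_assoc]

section plane

variable {F : Type} [Field F] [Algebra k F] (ι : F →ₐ[k] D)

/-- The element `p₀ + p₁ s` -/
def lc (s : K) (p₀ p₁ : F) : D := ι p₀ + ι p₁ * algebraMap K D s

theorem lc_mul (hS : SetF k K D d s) (p₀ p₁ q₀ q₁ : F) :
    lc ι s p₀ p₁ * lc ι s q₀ q₁ =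
      lc ι s (p₀ * q₀ + algebraMap k F d * (p₁ * q₁)) (p₀ * q₁ + p₁ * q₀) := by
  unfold lc
  have hc : ∀ x : D, algebraMap K D s * x = x * algebraMap K D s := fun x =>
    Algebra.commutes s x
  have h1 : ι p₁ * algebraMap K D s * (ι q₁ * algebraMap K D s) =
      algebraMap k D d * (ι p₁ * ι q₁) := by
    rw [mul_assoc, ← mul_assoc (algebraMap K D s), hc (ι q₁), mul_assoc (ι q₁), sq_sDF hS,
      ← mul_assoc, Algebra.commutes]
  simp only [map_add, map_mul, AlgHom.commutes]
  rw [add_mul, mul_add, mul_add, h1, mul_assoc (ι p₁) (algebraMap K D s) (ι q₀), hc (ι q₀)]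
  noncomm_ring

theorem lc_zero_right (p : F) : lc ι s p 0 = ι p := by simp [lc]

theorem lc_add (p₀ p₁ q₀ q₁ : F) :
    lc ι s p₀ p₁ + lc ι s q₀ q₁ = lc ι s (p₀ + q₀) (p₁ + q₁) := by
  unfold lc
  rw [map_add, map_add, add_mul]
  abel

theorem lc_neg (p₀ p₁ : F) : -lc ι s p₀ p₁ = lc ι s (-p₀) (-p₁) := by
  unfold lc
  rw [map_neg, map_neg, neg_mul]
  abel

theorem lc_one : lc ι s (1 : F) 0 = 1 := by simp [lc]

theorem lc_zero : lc ι s (0 : F) 0 = 0 := by simp [lc]

theorem star_lc (hS : SetF k K D d s) (sym : ∀ x, star (ι x) = ι x) (p₀ p₁ : F) :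
    star (lc ι s p₀ p₁) = lc ι s p₀ (-p₁) := by
  unfold lc
  rw [star_add, star_mul, sym, sym, star_sDF hS, neg_mul, Algebra.commutes s (ι p₁), map_neg,
    neg_mul]

/-- Existence of the plane elements. -/
theorem exists_rotF (hS : SetF k K D d s) {g : D} (hg : star g = g) (han : An g)
    (sym : ∀ x, star (ι x) = ι x) (b : Fˣ) (p₀ p₁ q₀ q₁ : F) {y w : D × D}
    (yy : hh g y y = 1) (yw : hh g y w = 0) (ww : hh g w w = ι b)
    (nrm : p₀ ^ 2 - algebraMap k F d * p₁ ^ 2 + b * (q₀ ^ 2 - algebraMap k F d * q₁ ^ 2) = 1) :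
    ∃ u : (D × D) ≃ₗ[D] (D × D), PlaneEltF d s g ι b p₀ p₁ q₀ q₁ y w u := by
  have hy : y ≠ 0 := by
    rintro rfl
    simp [hh] at yy
  have hw : w ≠ 0 := by
    rintro rfl
    have : ι (b : F) ≠ 0 := by
      rw [ne_eq, map_eq_zero]
      exact b.ne_zero
    apply this
    rw [← ww]
    simp [hh]
  obtain ⟨E, hE⟩ := exists_basis hg han hy hw yw
  set P := lc ι s p₀ p₁ with hP
  set Q := lc ι s q₀ q₁ with hQ
  set P' := lc ι s p₀ (-p₁) with hP'
  set R := lc ι s (-(b * q₀)) (b * q₁) with hR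
  have e1 : P * P' - Q * R = 1 := by
    rw [sub_eq_add_neg, hP, hP', hQ, hR, lc_mul ι hS, lc_mul ι hS, lc_neg, lc_add,
      ← lc_one ι (s := s)]
    congr 1
    · linear_combination nrm
    · ring
  have e1' : P' * P - R * Q = 1 := by
    rw [sub_eq_add_neg, hP, hP', hQ, hR, lc_mul ι hS, lc_mul ι hS, lc_neg, lc_add,
      ← lc_one ι (s := s)]
    congr 1
    · linear_combination nrm
    · ring
  have e1a : P' * P - Q * R = 1 := by
    rw [sub_eq_add_neg, hP, hP', hQ, hR, lc_mul ι hS, lc_mul ι hS, lc_neg, lc_add,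
      ← lc_one ι (s := s)]
    congr 1
    · linear_combination nrm
    · ring
  have e1b : P * P' - R * Q = 1 := by
    rw [sub_eq_add_neg, hP, hP', hQ, hR, lc_mul ι hS, lc_mul ι hS, lc_neg, lc_add,
      ← lc_one ι (s := s)]
    congr 1
    · linear_combination nrm
    · ring
  have e2 : P * Q = Q * P := by
    rw [hP, hQ, lc_mul ι hS, lc_mul ι hS]
    congr 1 <;> ring
  have e3 : P' * Q = Q * P' := by
    rw [hP', hQ, lc_mul ι hS, lc_mul ι hS]
    congr 1 <;> ring
  have e4 : P * R = R * P := by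
    rw [hP, hR, lc_mul ι hS, lc_mul ι hS]
    congr 1 <;> ring
  have e5 : P' * R = R * P' := by
    rw [hP', hR, lc_mul ι hS, lc_mul ι hS]
    congr 1 <;> ring
  let M : (D × D) ≃ₗ[D] (D × D) :=
    { toFun := fun x => (x.1 * P + x.2 * R, x.1 * Q + x.2 * P')
      invFun := fun x => (x.1 * P' - x.2 * R, x.2 * P - x.1 * Q)
      map_add' := by
        intro x y
        ext <;> simp only [Prod.fst_add, Prod.snd_add] <;> noncomm_ring
      map_smul' := by
        intro a x
        ext <;> simp only [Prod.smul_fst, Prod.smul_snd, smul_eq_mul, RingHom.id_apply] <;>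
          noncomm_ring
      left_inv := by
        rintro ⟨x, y⟩
        ext
        · change (x * P + y * R) * P' - (x * Q + y * P') * R = x
          have : (x * P + y * R) * P' - (x * Q + y * P') * R =
              x * (P * P' - Q * R) + y * (R * P' - P' * R) := by noncomm_ring
          rw [this, e1, e5, sub_self, mul_one, mul_zero, add_zero]
        · change (x * Q + y * P') * P - (x * P + y * R) * Q = y
          have : (x * Q + y * P') * P - (x * P + y * R) * Q =
              y * (P' * P - R * Q) + x * (Q * P - P * Q) := by noncomm_ring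
          rw [this, e1', e2, sub_self, mul_one, mul_zero, add_zero]
      right_inv := by
        rintro ⟨x, y⟩
        ext
        · change (x * P' - y * R) * P + (y * P - x * Q) * R = x
          have : (x * P' - y * R) * P + (y * P - x * Q) * R =
              x * (P' * P - Q * R) + y * (P * R - R * P) := by noncomm_ring
          rw [this, e1a, e4, sub_self, mul_one, mul_zero, add_zero]
        · change (x * P' - y * R) * Q + (y * P - x * Q) * P' = y
          have : (x * P' - y * R) * Q + (y * P - x * Q) * P' =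
              y * (P * P' - R * Q) + x * (P' * Q - Q * P') := by noncomm_ring
          rw [this, e1b, e3, sub_self, mul_one, mul_zero, add_zero] }
  have hEy : E (1, 0) = y := by rw [hE, one_smul, zero_smul, add_zero]
  have hEw : E (0, 1) = w := by rw [hE, one_smul, zero_smul, zero_add]
  refine ⟨E.symm.trans (M.trans E), ⟨sym, yy, yw, ww, nrm, ?_, ?_⟩⟩
  · rw [LinearEquiv.trans_apply, LinearEquiv.trans_apply, ← hEy, E.symm_apply_apply]
    have : M (1, 0) = (P, Q) := by
      change ((1 : D) * P + 0 * R, (1 : D) * Q + 0 * P') = (P, Q)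
      simp
    rw [this, hE, hEy]
    rfl
  · rw [LinearEquiv.trans_apply, LinearEquiv.trans_apply, ← hEw, E.symm_apply_apply]
    have : M (0, 1) = (R, P') := by
      change ((0 : D) * P + 1 * R, (0 : D) * Q + 1 * P') = (R, P')
      simp
    rw [this, hE, hEw, hR, hP']
    unfold lc
    simp only [map_neg, map_mul]
    congr 2
    · noncomm_ring
    · noncomm_ring

end plane

section elt

variable {F : Type} [Field F] [Algebra k F]

/-- The plane element is determined by its parameters. -/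
theorem planeElt_uniqueF {g : D} (hg : star g = g) (han : An g)
    {ι : F →ₐ[k] D} {b : Fˣ} {p₀ p₁ q₀ q₁ : F} {y w : D × D}
    {u u' : (D × D) ≃ₗ[D] (D × D)} (h : PlaneEltF d s g ι b p₀ p₁ q₀ q₁ y w u)
    (h' : PlaneEltF d s g ι b p₀ p₁ q₀ q₁ y w u') : u = u' := by
  have hy : y ≠ 0 := by
    rintro rfl
    have := h.yy
    simp [hh] at this
  have hw : w ≠ 0 := by
    rintro rfl
    have h0 : ι (b : F) ≠ 0 := by
      rw [ne_eq, map_eq_zero]
      exact b.ne_zero
    apply h0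
    rw [← h.ww]
    simp [hh]
  obtain ⟨E, hE⟩ := exists_basis hg han hy hw h.yw
  ext1 x
  obtain ⟨⟨a, c⟩, rfl⟩ := E.surjective x
  rw [hE, map_add, map_smul, map_smul, map_add, map_smul, map_smul, h.uy, h'.uy, h.uw, h'.uw]

/-- Composition of plane elements. -/
theorem planeElt_mulF (hS : SetF k K D d s) {g : D} {ι : F →ₐ[k] D} {b : Fˣ}
    {p₀ p₁ q₀ q₁ p₀' p₁' q₀' q₁' : F}
    {y w : D × D} {u u' : (D × D) ≃ₗ[D] (D × D)} (h : PlaneEltF d s g ι b p₀ p₁ q₀ q₁ y w u)
    (h' : PlaneEltF d s g ι b p₀' p₁' q₀' q₁' y w u')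
    {P₀ P₁ Q₀ Q₁ : F}
    (e1 : P₀ = p₀' * p₀ + algebraMap k F d * (p₁' * p₁) -
      b * (q₀' * q₀ - algebraMap k F d * (q₁' * q₁)))
    (e2 : P₁ = p₀' * p₁ + p₁' * p₀ - b * (q₁' * q₀ - q₀' * q₁))
    (e3 : Q₀ = p₀' * q₀ + algebraMap k F d * (p₁' * q₁) + (q₀' * p₀ - algebraMap k F d * (q₁' * p₁)))
    (e4 : Q₁ = p₀' * q₁ + p₁' * q₀ + (q₁' * p₀ - q₀' * p₁)) :
    PlaneEltF d s g ι b P₀ P₁ Q₀ Q₁ y w (u * u') := by
  have hy := h.uy
  have hw := h.uw
  have hy' := h'.uy
  have hw' := h'.uw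
  change u y = lc ι s p₀ p₁ • y + lc ι s q₀ q₁ • w at hy
  change u' y = lc ι s p₀' p₁' • y + lc ι s q₀' q₁' • w at hy'
  have hR : ∀ a c : F, -(ι b * (ι a - ι c * algebraMap K D s)) = lc ι s (-(b * a)) (b * c) := by
    intro a c
    unfold lc
    simp only [map_neg, map_mul]
    noncomm_ring
  have hP : ∀ a c : F, ι a - ι c * algebraMap K D s = lc ι s a (-c) := by
    intro a c
    unfold lc
    simp only [map_neg]
    noncomm_ring
  rw [hR, hP] at hw hw'
  refine ⟨h.sym, h.yy, h.yw, h.ww, ?_, ?_, ?_⟩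
  · have n1 := h.nrm
    have n2 := h'.nrm
    subst e1 e2 e3 e4
    linear_combination n1 * (p₀' ^ 2 - algebraMap k F d * p₁' ^ 2 +
      b * (q₀' ^ 2 - algebraMap k F d * q₁' ^ 2)) + n2
  · change u (u' y) = lc ι s P₀ P₁ • y + lc ι s Q₀ Q₁ • w
    rw [hy', map_add, map_smul, map_smul, hy, hw, smul_add, smul_add, smul_smul, smul_smul,
      smul_smul, smul_smul, lc_mul ι hS, lc_mul ι hS, lc_mul ι hS, lc_mul ι hS]
    have : ∀ a c e f : D, a • y + c • w + (e • y + f • w) = (a + e) • y + (c + f) • w := by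
      intro a c e f
      rw [add_smul, add_smul]
      abel
    rw [this, lc_add, lc_add]
    congr 3
    · rw [e1]
      ring
    · rw [e2]
      ring
    · rw [e3]
      ring
    · rw [e4]
      ring
  · change u (u' w) = _
    rw [hR, hP, hw', map_add, map_smul, map_smul, hy, hw, smul_add, smul_add, smul_smul,
      smul_smul, smul_smul, smul_smul, lc_mul ι hS, lc_mul ι hS, lc_mul ι hS, lc_mul ι hS]
    have : ∀ a c e f : D, a • y + c • w + (e • y + f • w) = (a + e) • y + (c + f) • w := by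
      intro a c e f
      rw [add_smul, add_smul]
      abel
    rw [this, lc_add, lc_add]
    congr 3
    · rw [e3]
      ring
    · rw [e4]
      ring
    · rw [e1]
      ring
    · rw [e2]
      ring

/-- Plane elements are isometries. -/
theorem planeElt_memF (hS : SetF k K D d s) {g : D} (hg : star g = g) (han : An g)
    {ι : F →ₐ[k] D} {b : Fˣ} {p₀ p₁ q₀ q₁ : F}
    {y w : D × D} {u : (D × D) ≃ₗ[D] (D × D)} (h : PlaneEltF d s g ι b p₀ p₁ q₀ q₁ y w u) :
    u ∈ Uh g := by
  have hy : y ≠ 0 := by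
    rintro rfl
    have := h.yy
    simp [hh] at this
  have hw0 : w ≠ 0 := by
    rintro rfl
    have h0 : ι (b : F) ≠ 0 := by
      rw [ne_eq, map_eq_zero]
      exact b.ne_zero
    apply h0
    rw [← h.ww]
    simp [hh]
  obtain ⟨E, hE⟩ := exists_basis hg han hy hw0 h.yw
  have huy := h.uy
  have huw := h.uw
  change u y = lc ι s p₀ p₁ • y + lc ι s q₀ q₁ • w at huy
  have hR : ∀ a c : F, -(ι b * (ι a - ι c * algebraMap K D s)) = lc ι s (-(b * a)) (b * c) := by
    intro a c
    unfold lc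
    simp only [map_neg, map_mul]
    noncomm_ring
  have hP : ∀ a c : F, ι a - ι c * algebraMap K D s = lc ι s a (-c) := by
    intro a c
    unfold lc
    simp only [map_neg]
    noncomm_ring
  rw [hR, hP] at huw
  have hwy : hh g w y = 0 := by rw [← hh_star hg, h.yw, star_zero]
  have hb : ι (b : F) = lc ι s (b : F) 0 := (lc_zero_right ι (b : F)).symm
  have n1 := h.nrm
  -- the four values
  have v1 : hh g (u y) (u y) = 1 := by
    rw [huy]
    simp only [hh_add_left, hh_add_right, hh_smul_left, hh_smul_right, h.yy, h.yw, h.ww, hwy,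
      star_lc ι hS h.sym, hb, mul_one, mul_zero, add_zero, zero_add]
    rw [lc_mul ι hS, lc_mul ι hS, lc_mul ι hS, lc_add, ← lc_one ι (s := s)]
    congr 1
    · linear_combination n1
    · ring
  have v2 : hh g (u y) (u w) = 0 := by
    rw [huy, huw]
    simp only [hh_add_left, hh_add_right, hh_smul_left, hh_smul_right, h.yy, h.yw, h.ww, hwy,
      star_lc ι hS h.sym, hb, mul_one, mul_zero, add_zero, zero_add]
    rw [lc_mul ι hS, lc_mul ι hS, lc_mul ι hS, lc_add, ← lc_zero ι (s := s)]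
    congr 1
    · ring
    · ring
  have v3 : hh g (u w) (u w) = ι b := by
    rw [huw]
    simp only [hh_add_left, hh_add_right, hh_smul_left, hh_smul_right, h.yy, h.yw, h.ww, hwy,
      star_lc ι hS h.sym, hb, mul_one, mul_zero, add_zero, zero_add]
    rw [lc_mul ι hS, lc_mul ι hS, lc_mul ι hS, lc_add]
    congr 1
    · linear_combination (b : F) * n1
    · ring
  have v2' : hh g (u w) (u y) = 0 := by rw [← hh_star hg, v2, star_zero]
  intro x x'
  obtain ⟨⟨a, c⟩, rfl⟩ := E.surjective x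
  obtain ⟨⟨a', c'⟩, rfl⟩ := E.surjective x'
  rw [hE, hE]
  simp only [map_add, map_smul, hh_add_left, hh_add_right, hh_smul_left, hh_smul_right, v1, v2,
    v2', v3, h.yy, h.yw, hwy, h.ww]

/-- Conjugates of plane elements. -/
theorem planeElt_conjF {g : D} {ι : F →ₐ[k] D} {b : Fˣ} {p₀ p₁ q₀ q₁ : F} {y w : D × D}
    {u : (D × D) ≃ₗ[D] (D × D)} (h : PlaneEltF d s g ι b p₀ p₁ q₀ q₁ y w u)
    {v : (D × D) ≃ₗ[D] (D × D)} (hv : v ∈ Uh g) :
    PlaneEltF d s g ι b p₀ p₁ q₀ q₁ (v y) (v w) (v * u * v⁻¹) := by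
  have hvi : ∀ x, v⁻¹ (v x) = x := fun x => v.symm_apply_apply x
  refine ⟨h.sym, ?_, ?_, ?_, h.nrm, ?_, ?_⟩
  · rw [hv, h.yy]
  · rw [hv, h.yw]
  · rw [hv, h.ww]
  · change v (u (v⁻¹ (v y))) = _
    rw [hvi, h.uy, map_add, map_smul, map_smul]
  · change v (u (v⁻¹ (v w))) = _
    rw [hvi, h.uw, map_add, map_smul, map_smul]

theorem planeElt_spansF {g : D} (hg : star g = g) (han : An g)
    {ι : F →ₐ[k] D} {b : Fˣ} {p₀ p₁ q₀ q₁ : F} {y w : D × D}
    {u : (D × D) ≃ₗ[D] (D × D)} (h : PlaneEltF d s g ι b p₀ p₁ q₀ q₁ y w u) :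
    ∀ x, ∃ a c : D, x = a • y + c • w := by
  have hy : y ≠ 0 := by
    rintro rfl
    have := h.yy
    simp [hh] at this
  have hw : w ≠ 0 := by
    rintro rfl
    have h0 : ι (b : F) ≠ 0 := by
      rw [ne_eq, map_eq_zero]
      exact b.ne_zero
    apply h0
    rw [← h.ww]
    simp [hh]
  obtain ⟨E, hE⟩ := exists_basis hg han hy hw h.yw
  intro x
  obtain ⟨⟨a, c⟩, rfl⟩ := E.surjective x
  exact ⟨a, c, hE a c⟩

/-- The quaternion algebra of the plane is a division algebra. -/
theorem aniso_planeF (hS : SetF k K D d s) {g : D} (hg : star g = g) (han : An g)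
    {ι : F →ₐ[k] D} (sym : ∀ x, star (ι x) = ι x) {b : Fˣ} {y w : D × D} (yy : hh g y y = 1)
    (yw : hh g y w = 0) (ww : hh g w w = ι b) : Aniso (inc k F d) (-b) := by
  intro x hx
  have h20 : (2 : F) ≠ 0 := by
    rw [← map_ofNat (algebraMap k F) 2]
    exact (map_ne_zero _).mpr hS.two_ne
  have hwy : hh g w y = 0 := by rw [← hh_star hg, yw, star_zero]
  have hb : ι (b : F) = lc ι s (b : F) 0 := (lc_zero_right ι (b : F)).symm
  have hy : y ≠ 0 := by
    rintro rfl
    simp [hh] at yy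
  have hw0 : w ≠ 0 := by
    rintro rfl
    have h0 : ι (b : F) ≠ 0 := by
      rw [ne_eq, map_eq_zero]
      exact b.ne_zero
    apply h0
    rw [← ww]
    simp [hh]
  obtain ⟨E, hE⟩ := exists_basis hg han hy hw0 yw
  have hn : x.re ^ 2 - algebraMap k F d * x.imI ^ 2 +
      b * (x.imJ ^ 2 - algebraMap k F d * x.imK ^ 2) = 0 := by
    have : nrd x = x.re ^ 2 - algebraMap k F d * x.imI ^ 2 +
        b * (x.imJ ^ 2 - algebraMap k F d * x.imK ^ 2) := by
      simp only [nrd, inc, Units.coe_map, Units.val_neg]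
      change x.re ^ 2 - algebraMap k F d * x.imI ^ 2 - -(b : F) * x.imJ ^ 2 +
        algebraMap k F d * -(b : F) * x.imK ^ 2 = _
      ring
    rw [← this, hx]
  have h0 : E (lc ι s x.re x.imI, lc ι s x.imJ x.imK) = 0 := by
    apply han
    rw [hE]
    simp only [hh_add_left, hh_add_right, hh_smul_left, hh_smul_right, yy, yw, ww, hwy,
      star_lc ι hS sym, hb, mul_one, mul_zero, add_zero, zero_add]
    rw [lc_mul ι hS, lc_mul ι hS, lc_mul ι hS, lc_add, ← lc_zero ι (s := s)]
    congr 1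
    · linear_combination hn
    · ring
  have h1 : (lc ι s x.re x.imI, lc ι s x.imJ x.imK) = 0 := by
    apply E.injective
    rw [h0, map_zero]
  have hsD : algebraMap K D s ≠ 0 := by
    rw [ne_eq, map_eq_zero]
    exact hS.s_ne
  have key : ∀ p q : F, lc ι s p q = 0 → p = 0 ∧ q = 0 := by
    intro p q h
    have h' := congrArg star h
    rw [star_lc ι hS sym, star_zero] at h'
    have h2 : lc ι s p q + lc ι s p (-q) = 0 := by rw [h, h', add_zero]
    rw [lc_add, add_neg_cancel, lc_zero_right, map_eq_zero] at h2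
    have hp : p = 0 := by
      have : (2 : F) * p = 0 := by rw [two_mul]; exact h2
      exact (mul_eq_zero.mp this).resolve_left h20
    refine ⟨hp, ?_⟩
    rw [hp] at h
    unfold lc at h
    rw [map_zero, zero_add] at h
    have := (mul_eq_zero.mp h).resolve_right hsD
    rwa [map_eq_zero] at this
  rw [Prod.mk_eq_zero] at h1
  obtain ⟨h2, h3⟩ := h1
  obtain ⟨r1, r2⟩ := key _ _ h2
  obtain ⟨r3, r4⟩ := key _ _ h3
  ext <;> assumption

end elt

/-- A normal subgroup of index dividing a prime contains the elements killed by all characters of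
that order. -/
theorem mem_of_chars {G : Type} [Group G] {l : ℕ} (hl : l.Prime) (N : Subgroup G) [N.Normal]
    (hN : N.index ∣ l) {x : G} (hx : ∀ c : G →* Multiplicative (ZMod l), c x = 1) : x ∈ N := by
  rcases (Nat.dvd_prime hl).mp hN with h | h
  · rw [Subgroup.index_eq_one.mp h]
    exact Subgroup.mem_top x
  · have : Fact l.Prime := ⟨hl⟩
    have hc : Nat.card (G ⧸ N) = l := h
    have hc' : Nat.card (Multiplicative (ZMod l)) = l := by
      rw [Nat.card_congr Multiplicative.toAdd, Nat.card_zmod]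
    let e : (G ⧸ N) ≃* Multiplicative (ZMod l) := mulEquivOfPrimeCardEq hc hc'
    have h1 := hx (e.toMonoidHom.comp (QuotientGroup.mk' N))
    have h2 : e (QuotientGroup.mk' N x) = 1 := h1
    rw [← map_one e] at h2
    have h3 := e.injective h2
    rwa [QuotientGroup.mk'_apply, QuotientGroup.eq_one_iff] at h3

/-- The core of a subgroup of prime index has the property `HQF`. -/
theorem hq_coreOfF {P : Cond} (hM : MPQF P) (hS : SetF k K D d s) {g : D} (hg : star g = g)
    (han : An g) (G₀ N₀ : Subgroup ((D × D) ≃ₗ[D] (D × D)))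
    (hGp : ∀ (F : Type) [Field F] [GFF F] [Algebra k F] (ι : F →ₐ[k] D) (b : Fˣ)
      (p₀ p₁ q₀ q₁ : F) (y w : D × D) (u : (D × D) ≃ₗ[D] (D × D)),
      PlaneEltF d s g ι b p₀ p₁ q₀ q₁ y w u → u ∈ G₀)
    (hNn : ∀ v ∈ G₀, ∀ x ∈ N₀, v * x * v⁻¹ ∈ N₀) {l : ℕ} (hl : l.Prime)
    (hidx : N₀.relIndex G₀ ∣ l) :
    HQF P d s g (coreOf (Uh g) N₀) := by
  -- the elements close to one lie in `N₀`
  have key : ∀ (F : Type) [Field F] [GFF F] [Algebra k F] (ι : F →ₐ[k] D) (b : Fˣ)
      (p₀ p₁ q₀ q₁ : F) (y w : D × D) (u : (D × D) ≃ₗ[D] (D × D)),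
      PlaneEltF d s g ι b p₀ p₁ q₀ q₁ y w u →
      P F (inc k F d) (-b) (2 - 2 * p₀) → u ∈ N₀ := by
    intro F _ _ _ ι b p₀ p₁ q₀ q₁ y w u hu hloc
    have h20 : (2 : F) ≠ 0 := by
      rw [← map_ofNat (algebraMap k F) 2]
      exact (map_ne_zero _).mpr hS.two_ne
    have hA : Aniso (inc k F d) (-b) := aniso_planeF hS hg han hu.sym hu.yy hu.yw hu.ww
    have hnrd : ∀ x : Qt (inc k F d) (-b), nrd x = x.re ^ 2 - algebraMap k F d * x.imI ^ 2 +
        b * (x.imJ ^ 2 - algebraMap k F d * x.imK ^ 2) := by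
      intro x
      simp only [nrd, inc, Units.coe_map, Units.val_neg]
      change x.re ^ 2 - algebraMap k F d * x.imI ^ 2 - -(b : F) * x.imJ ^ 2 +
        algebraMap k F d * -(b : F) * x.imK ^ 2 = _
      ring
    have hd : ((inc k F d : Fˣ) : F) = algebraMap k F d := rfl
    have hb : ((-b : Fˣ) : F) = -(b : F) := rfl
    have hex : ∀ x : SL1 (inc k F d) (-b), ∃ v : (D × D) ≃ₗ[D] (D × D),
        PlaneEltF d s g ι b (((x : (Qt (inc k F d) (-b))ˣ) : Qt (inc k F d) (-b))).re
          (((x : (Qt (inc k F d) (-b))ˣ) : Qt (inc k F d) (-b))).imI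
          (((x : (Qt (inc k F d) (-b))ˣ) : Qt (inc k F d) (-b))).imJ
          (((x : (Qt (inc k F d) (-b))ˣ) : Qt (inc k F d) (-b))).imK y w v := by
      intro x
      refine exists_rotF ι hS hg han hu.sym b _ _ _ _ hu.yy hu.yw hu.ww ?_
      rw [← hnrd]
      exact x.2
    choose Ψ hΨ using hex
    have hmul : ∀ x x' : SL1 (inc k F d) (-b), Ψ (x * x') = Ψ x' * Ψ x := by
      intro x x'
      refine planeElt_uniqueF hg han (hΨ _) (planeElt_mulF hS (hΨ x') (hΨ x) ?_ ?_ ?_ ?_)
      · rw [Subgroup.coe_mul, Units.val_mul, qt_re hd hb]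
      · rw [Subgroup.coe_mul, Units.val_mul, qt_imI hb]
      · rw [Subgroup.coe_mul, Units.val_mul, qt_imJ hd]
      · rw [Subgroup.coe_mul, Units.val_mul, qt_imK]
    have hone : Ψ 1 = 1 := by
      have h := hmul 1 1
      rw [mul_one] at h
      exact (mul_eq_left.mp h.symm)
    have hΨG : ∀ x, Ψ x ∈ G₀ := fun x => hGp F ι b _ _ _ _ y w _ (hΨ x)
    let Φ : SL1 (inc k F d) (-b) →* G₀ :=
      { toFun := fun x => ⟨Ψ x⁻¹, hΨG _⟩
        map_one' := Subtype.ext (by
          change Ψ 1⁻¹ = 1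
          rw [inv_one, hone])
        map_mul' := fun x x' => Subtype.ext (by
          change Ψ (x * x')⁻¹ = Ψ x⁻¹ * Ψ x'⁻¹
          rw [mul_inv_rev, hmul]) }
    have hΦi : ∀ x, ((Φ x : G₀) : (D × D) ≃ₗ[D] (D × D)) = (Ψ x)⁻¹ := by
      intro x
      have h := hmul x x⁻¹
      rw [mul_inv_cancel, hone] at h
      exact (inv_eq_of_mul_eq_one_left h.symm).symm
    have hNn' : (N₀.subgroupOf G₀).Normal := by
      refine ⟨fun a ha b => ?_⟩
      rw [Subgroup.mem_subgroupOf] at ha ⊢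
      exact hNn b b.2 a ha
    obtain ⟨N', hN'⟩ : ∃ N' : Subgroup (SL1 (inc k F d) (-b)),
      N' = (N₀.subgroupOf G₀).comap Φ := ⟨_, rfl⟩
    have hnorm : N'.Normal := by
      rw [hN']
      infer_instance
    have hindex : N'.index ∣ l := by
      rw [hN', Subgroup.index_comap]
      exact (Subgroup.relIndex_dvd_index_of_normal _ _).trans hidx
    have hq : nrd (⟨p₀, p₁, q₀, q₁⟩ : Qt (inc k F d) (-b)) = 1 := by
      rw [hnrd]
      exact hu.nrm
    let x₀ : (Qt (inc k F d) (-b))ˣ := mkUnit hd hb p₀ p₁ q₀ q₁ hu.nrm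
    let x₁ : SL1 (inc k F d) (-b) := ⟨x₀, hq⟩
    have hx1 : nrd (((x₁ : (Qt (inc k F d) (-b))ˣ) : Qt (inc k F d) (-b)) - 1) =
        2 - 2 * p₀ := by
      change nrd ((⟨p₀, p₁, q₀, q₁⟩ : Qt (inc k F d) (-b)) - 1) = _
      rw [hnrd]
      simp only [QuaternionAlgebra.re_sub, QuaternionAlgebra.imI_sub, QuaternionAlgebra.imJ_sub,
        QuaternionAlgebra.imK_sub, QuaternionAlgebra.re_one, QuaternionAlgebra.imI_one,
        QuaternionAlgebra.imJ_one, QuaternionAlgebra.imK_one, sub_zero]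
      linear_combination hu.nrm
    have hmem : x₁ ∈ N' := by
      refine mem_of_chars hl N' hindex fun c => hM l hl F h20 _ _ hA c x₁ ?_
      rw [hx1]
      exact hloc
    rw [hN', Subgroup.mem_comap, Subgroup.mem_subgroupOf, hΦi] at hmem
    have h2 : u = Ψ x₁ := planeElt_uniqueF hg han hu (hΨ x₁)
    rw [h2]
    exact (N₀.inv_mem_iff).mp hmem
  intro F _ _ _ ι b p₀ p₁ q₀ q₁ y w u hu hloc v hv
  exact key F ι b p₀ p₁ q₀ q₁ _ _ _ (planeElt_conjF hu hv) hloc

end Vale.Agent.P011.H124.R4
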