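import Vale.Agent.P011.H124.R4a

/-!
**Rank two over function fields: the rotations of planes contained in a normal subgroup of prime
index, and commutators** (`Three/Core`, `Two/MainTwo`, `Two/Higher` without number fields).
-/

open Module Matrix

set_option linter.unusedSectionVars false

namespace Vale.Agent.P011.H124.R4

open Vale.Agent.P011S Vale.Agent.P011.Arith Vale.Agent.P011.Even Vale.Agent.P011.MPQ
open Vale.Agent.P011.Two Vale.Agent.P011.Two.Hi Vale.Agent.P011.H305 Vale.Agent.P011.H271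
open Vale.Agent.P011.Three (first_of hh_unit mem_Uh_unit)
open Vale.Agent.P011.RP (rowH rowF)

variable {k K D : Type} [Field k] [GFF k] [Field K] [StarRing K]
  [DivisionRing D] [StarRing D] [Algebra k K] [Algebra k D] [Algebra K D] [IsScalarTower k K D]
  {d : kˣ} {s : K} {P : Cond}

/-- The group generated by the rotations of a plane which are contained in the given group. -/
theorem core_twoF (hM : MPQF P) (hT : TransF P) (hG2 : MatchedF P)
    (hS : SetF k K D d s) {n : ℕ} (hn : 2 ≤ n) (hdeg : finrank K D = n ^ 2)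
    {g : D} (hg : star g = g) (han : An g) (G₀ N₀ : Subgroup ((D × D) ≃ₗ[D] (D × D)))
    (hGp : PlaneInF d s (Uh g) G₀) (hG : G₀ ≤ Uh g) (hN : N₀ ≤ G₀)
    (hNn : ∀ v ∈ G₀, ∀ x ∈ N₀, v * x * v⁻¹ ∈ N₀) {l : ℕ} (hl : l.Prime)
    (hidx : N₀.relIndex G₀ ∣ l) :
    ∃ N : Subgroup ((D × D) ≃ₗ[D] (D × D)), N ≤ N₀ ∧ N ≤ Uh g ∧
      (∀ v ∈ Uh g, ∀ x ∈ N, v * x * v⁻¹ ∈ N) ∧ HQF P d s g N ∧
      (∀ y : D × D, hh g y y = 1 → ∃ u ∈ N, ∃ δ : D, δ ≠ 0 ∧ u e₁ = δ • y) ∧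
      (∀ t : D, t * star t = 1 → ∃ t' : D, ∃ u ∈ N, IsDiag t t' u) ∧
      (∀ t' : D, t' * g * star t' = g → ∃ t : D, ∃ u ∈ N, IsDiag t t' u) := by
  have hg0 : g ≠ 0 := by
    rintro rfl
    have := han (0, 1) (by simp [hh])
    simp at this
  -- the core
  set N := coreOf (Uh g) N₀ with hNdef
  have hHQ : HQF P d s g N := hq_coreOfF hM hS hg han G₀ N₀
    (fun F _ _ _ ι b p₀ p₁ q₀ q₁ y w u hu => hGp F ι b p₀ p₁ q₀ q₁ y w u
      (planeElt_spansF hg han hu) hu.nrm hu.uy hu.uw (planeElt_memF hS hg han hu)) hNn hl hidx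
  have hNU : N ≤ Uh g := (coreOf_le _ _).trans (hN.trans hG)
  -- the twisted form
  let φ : ((D × D) ≃ₗ[D] (D × D)) ≃* ((D × D) ≃ₗ[D] (D × D)) := MulAut.conj (sw D)
  have hφ : ∀ u, φ u = sw D * u * sw D := fun u => rfl
  have hφφ : ∀ u, φ (φ u) = u := by
    intro u
    ext1 x
    rfl
  set G₀' := G₀.comap φ.toMonoidHom with hG₀'
  set N₀' := N₀.comap φ.toMonoidHom with hN₀'
  have hmG : ∀ u, u ∈ G₀' ↔ φ u ∈ G₀ := fun u => Iff.rfl
  have hmN : ∀ u, u ∈ N₀' ↔ φ u ∈ N₀ := fun u => Iff.rfl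
  have hNn'' : ∀ v ∈ G₀', ∀ x ∈ N₀', v * x * v⁻¹ ∈ N₀' := by
    intro v hv x hx
    rw [hmN, map_mul, map_mul, map_inv]
    exact hNn _ hv _ hx
  have hidx' : N₀'.relIndex G₀' ∣ l := by
    rw [hN₀', hG₀', Subgroup.relIndex_comap, Subgroup.map_comap_eq_self_of_surjective φ.surjective]
    exact hidx
  have hgi := star_inv_twist hg hg0
  have han' := an_twist hg hg0 han
  have hS' := setting_twistF hS hg hg0
  have hHQ' : @HQF k K D _ _ _ (twistStar hg hg0) _ _ P d s g⁻¹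
      (coreOf (@Uh D _ (twistStar hg hg0) g⁻¹) N₀') := by
    refine @hq_coreOfF k K D _ _ _ _ (twistStar hg hg0) _ _ _ _ d s P hM hS' g⁻¹ hgi han'
      G₀' N₀' ?_ hNn'' l hl hidx'
    intro F _ _ _ ι b p₀ p₁ q₀ q₁ y w u hu
    rw [hmG]
    have hmem := @planeElt_memF k K D _ _ _ _ (twistStar hg hg0) _ _ _ _ d s F _ _ hS' g⁻¹ hgi
      han' ι b p₀ p₁ q₀ q₁ y w u hu
    have hspan := @planeElt_spansF k K D _ _ _ _ (twistStar hg hg0) _ _ _ _ d s F _ _ g⁻¹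
      hgi han' ι b p₀ p₁ q₀ q₁ y w u hu
    obtain ⟨hsym, hyy, hyw, hww, hnrm, huy, huw⟩ := hu
    refine hGp F ι b p₀ p₁ q₀ q₁ (sw D y) (sw D w) (φ u) ?_ hnrm ?_ ?_ ?_
    · intro x
      obtain ⟨a, c, h⟩ := hspan (sw D x)
      refine ⟨a, c, ?_⟩
      rw [← map_smul, ← map_smul, ← map_add, ← h, sw_sw]
    · change sw D (u (sw D (sw D y))) = _
      rw [sw_sw, huy, map_add, map_smul, map_smul]
    · change sw D (u (sw D (sw D w))) = _
      rw [sw_sw, huw, map_add, map_smul, map_smul]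
    · rw [hφ]
      exact (mem_Uh_twist hg hg0 u).mp hmem
  have hA : ∀ t : D, t * star t = 1 → ∃ t' : D, ∃ u ∈ N, IsDiag t t' u := fun t ht =>
    hG2 k K D d s hS n hn hdeg g hg han N hHQ t ht
  have hB : ∀ t' : D, t' * g * star t' = g → ∃ t : D, ∃ u ∈ N, IsDiag t t' u := by
    intro t' ht'
    obtain ⟨t, u, hu, h1, h2⟩ := @hG2 k K D _ _ _ _ _ (twistStar hg hg0) _ _ _ _ d s hS' n hn hdeg
      g⁻¹ hgi han' _ hHQ' t' (by
        change t' * (g * star t' * g⁻¹) = 1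
        calc t' * (g * star t' * g⁻¹) = (t' * g * star t') * g⁻¹ := by noncomm_ring
          _ = 1 := by rw [ht', mul_inv_cancel₀ hg0])
    refine ⟨t, φ u, ?_, ?_, ?_⟩
    · intro v hv
      have hv' : φ v ∈ @Uh D _ (twistStar hg hg0) g⁻¹ := by
        rw [mem_Uh_twist hg hg0]
        have : sw D * φ v * sw D = v := hφφ v
        rw [this]
        exact hv
      have h := hu _ hv'
      rw [hmN, map_mul, map_mul, map_inv, hφφ] at h
      exact h
    · change sw D (u (sw D (1, 0))) = _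
      rw [sw_apply (1, 0)]
      change sw D (u (0, 1)) = _
      rw [h2]
      rfl
    · change sw D (u (sw D (0, 1))) = _
      rw [sw_apply (0, 1)]
      change sw D (u (1, 0)) = _
      rw [h1]
      rfl
  have hT' : ∀ y : D × D, hh g y y = 1 → ∃ u ∈ N, ∃ δ : D, δ ≠ 0 ∧ u e₁ = δ • y := fun y hy =>
    hT k K D d s hS n hn hdeg g hg han N (coreOf_normal _ _) hHQ y hy
  exact ⟨N, coreOf_le _ _, hNU, coreOf_normal _ _, hHQ, hT', hA, hB⟩

/-- The theorem in rank two, modulo the blocks 2T and 2G and the theorem for quaternions. -/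
theorem main_twoF (hM : MPQF P) (hT : TransF P) (hG2 : MatchedF P)
    (hS : SetF k K D d s) {n : ℕ} (hn : 2 ≤ n) (hdeg : finrank K D = n ^ 2)
    {g : D} (hg : star g = g) (han : An g) (G₀ N₀ : Subgroup ((D × D) ≃ₗ[D] (D × D)))
    (hGp : PlaneInF d s (Uh g) G₀) (hG : G₀ ≤ Uh g) (hN : N₀ ≤ G₀)
    (hNn : ∀ v ∈ G₀, ∀ x ∈ N₀, v * x * v⁻¹ ∈ N₀) {l : ℕ} (hl : l.Prime)
    (hidx : N₀.relIndex G₀ ∣ l) :
    ∀ u ∈ Uh g, ∀ v ∈ Uh g, u * v * u⁻¹ * v⁻¹ ∈ N₀ := by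
  have hg0 : g ≠ 0 := by
    rintro rfl
    have := han (0, 1) (by simp [hh])
    simp at this
  obtain ⟨N, h1, h2, h3, -, h5, h6, h7⟩ := core_twoF hM hT hG2 hS hn hdeg hg han G₀ N₀ hGp hG hN
    hNn hl hidx
  intro u hu v hv
  exact h1 (comm_of hg0 h2 h3 h5 h6 h7 u hu v hv)

section plane

variable {Ω : Type} [Field Ω] [Algebra K Ω] {n : ℕ} (f : D →ₐ[K] Matrix (Fin n) (Fin n) Ω)
  {m : ℕ} {H : Matrix (Fin m) (Fin m) D} {hH : IsAnisotropicForm H}

theorem NN_relIndexF (N : Subgroup (SU f H)) [N.Normal] {l : ℕ} (hN : N.index ∣ l) :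
    (NN f N).relIndex (GG f H) ∣ l := by
  rw [NN, Hi.GG, Subgroup.relIndex_map_map_of_injective _ _ rp_injective]
  have h2 : (N.map (SU f H).subtype).relIndex ((⊤ : Subgroup (SU f H)).map (SU f H).subtype) =
      N.relIndex ⊤ := Subgroup.relIndex_map_map_of_injective _ _ (SU f H).subtype_injective
  rw [← MonoidHom.range_eq_map, Subgroup.range_subtype, Subgroup.relIndex_top_right] at h2
  rw [h2]
  exact hN

/-- The relative index of a subgroup which is normalised. -/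
theorem relIndex_dvd_of {G : Type} [Group G] {N G₁ G₂ : Subgroup G}
    (hN : ∀ v ∈ G₂, ∀ x ∈ N, v * x * v⁻¹ ∈ N) (h : G₁ ≤ G₂) {l : ℕ}
    (hl : N.relIndex G₂ ∣ l) : N.relIndex G₁ ∣ l := by
  have hn : (N.subgroupOf G₂).Normal := by
    refine ⟨fun a ha b => ?_⟩
    rw [Subgroup.mem_subgroupOf] at ha ⊢
    exact hN b b.2 a ha
  refine Dvd.dvd.trans ?_ hl
  have h1 : N.relIndex G₁ = (N.subgroupOf G₂).relIndex (G₁.subgroupOf G₂) := by
    rw [Subgroup.relIndex_subgroupOf h]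
  rw [h1]
  exact Subgroup.relIndex_dvd_index_of_normal _ _

/-- The rotations of the plane in the form without involution are in the special unitary group. -/
theorem planeIn_of (hS : SetF k K D d s) {X Y : Fin m → D} (hP : Pl (rowA H hH) X Y)
    {U G₀ : Subgroup ((D × D) ≃ₗ[D] (D × D))} (hUi : ∀ v ∈ U, ex hP v ∈ (rowA H hH).isom)
    (hG₀ : G₀ = U ⊓ (GG f H).comap (ex hP)) : PlaneInF d s U G₀ := by
  intro F _ _ _ ι b p₀ p₁ q₀ q₁ y w u hspan hnrm huy huw huU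
  rw [hG₀]
  refine ⟨huU, ?_⟩
  apply mem_GG f (hUi u huU)
  rw [redNorm_ex]
  obtain ⟨a1, c1, h1⟩ := hspan (1, 0)
  obtain ⟨a2, c2, h2⟩ := hspan (0, 1)
  obtain ⟨T, hTd⟩ : ∃ T : Matrix (Fin 2) (Fin 2) D, T = !![y.1, y.2; w.1, w.2] := ⟨_, rfl⟩
  have hT1 : !![a1, c1; a2, c2] * T = 1 := by
    rw [hTd]
    have e1 := congrArg Prod.fst h1
    have e2 := congrArg Prod.snd h1
    have e3 := congrArg Prod.fst h2
    have e4 := congrArg Prod.snd h2
    simp only [Prod.fst_add, Prod.snd_add, Prod.smul_fst, Prod.smul_snd, smul_eq_mul] at e1 e2 e3 e4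
    ext i j
    fin_cases i <;> fin_cases j <;>
      simp [Matrix.mul_apply, Fin.sum_univ_two, ← e1, ← e2, ← e3, ← e4]
  have hT0 : redNorm f (Fin 2) T ≠ 0 := by
    intro h0
    have h3 := congrArg (redNorm f (Fin 2)) hT1
    rw [map_mul, h0, mul_zero, map_one] at h3
    exact zero_ne_one h3
  have hTM : T * m2 u = !![ι p₀ + ι p₁ * algebraMap K D s, ι q₀ + ι q₁ * algebraMap K D s;
      -(ι b * (ι q₀ - ι q₁ * algebraMap K D s)), ι p₀ - ι p₁ * algebraMap K D s] * T := by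
    rw [u_apply u y] at huy
    rw [u_apply u w] at huw
    have e1 := congrArg Prod.fst huy
    have e2 := congrArg Prod.snd huy
    have e3 := congrArg Prod.fst huw
    have e4 := congrArg Prod.snd huw
    simp only [Prod.fst_add, Prod.snd_add, Prod.smul_fst, Prod.smul_snd, smul_eq_mul] at e1 e2 e3 e4
    rw [hTd, m2]
    ext i j
    fin_cases i <;> fin_cases j
    · simpa [Matrix.mul_apply, Fin.sum_univ_two] using e1
    · simpa [Matrix.mul_apply, Fin.sum_univ_two] using e2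
    · simpa [Matrix.mul_apply, Fin.sum_univ_two] using e3
    · simpa [Matrix.mul_apply, Fin.sum_univ_two] using e4
  have h4 := congrArg (redNorm f (Fin 2)) hTM
  rw [map_mul, map_mul, redNorm_plane f hS.sq ι b p₀ p₁ q₀ q₁ hnrm, one_mul] at h4
  exact mul_left_cancel₀ hT0 (by rw [h4, mul_one])

/-- The rotations of a plane containing a vector of length one. -/
theorem plane_coreF (hM : MPQF P) (hT : TransF P) (hG2 : MatchedF P)
    (hS : SetF k K D d s) (hn : 2 ≤ n) (hdeg : finrank K D = n ^ 2)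
    (N : Subgroup (SU f H)) [N.Normal] {l : ℕ} (hl : l.Prime) (hN : N.index ∣ l)
    {X Y : Fin m → D} (hP : Pl (rowA H hH) X Y) (hX : (rowA H hH).h X X = 1) :
    ∃ N₀ : Subgroup ((D × D) ≃ₗ[D] (D × D)), (∀ u ∈ N₀, ex hP u ∈ NN f N) ∧
      N₀ ≤ Uh ((rowA H hH).h Y Y) ∧
      (∀ v ∈ Uh ((rowA H hH).h Y Y), ∀ x ∈ N₀, v * x * v⁻¹ ∈ N₀) ∧
      HQF P d s ((rowA H hH).h Y Y) N₀ ∧
      (∀ y : D × D, hh ((rowA H hH).h Y Y) y y = 1 → ∃ u ∈ N₀, ∃ δ : D, δ ≠ 0 ∧ u e₁ = δ • y) ∧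
      (∀ t : D, t * star t = 1 → ∃ t' : D, ∃ u ∈ N₀, IsDiag t t' u) ∧
      (∀ w ∈ Uh ((rowA H hH).h Y Y), ∃ t : Dˣ, (t : D) * star (t : D) = 1 ∧
        (dgD t 1)⁻¹ * w ∈ N₀) := by
  obtain ⟨U, hU⟩ : ∃ U, U = Uh ((rowA H hH).h Y Y) := ⟨_, rfl⟩
  have hUi : ∀ v ∈ U, ex hP v ∈ (rowA H hH).isom := by
    intro v hv
    rw [hU, mem_Uh_unit hP hX] at hv
    exact ex_mem hP hv
  obtain ⟨G₀, hG₀⟩ : ∃ G₀, G₀ = U ⊓ (GG f H).comap (ex hP) := ⟨_, rfl⟩
  obtain ⟨N₁, hN₁⟩ : ∃ N₁, N₁ = (NN f N).comap (ex hP) ⊓ G₀ := ⟨_, rfl⟩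
  have han : An ((rowA H hH).h Y Y) := by
    intro x hx
    rw [hh_unit hP hX] at hx
    have h1 := (rowA H hH).anis hx
    have h2 := crd_vec hP x
    rw [h1, map_zero] at h2
    exact h2.symm
  have hg0 : (rowA H hH).h Y Y ≠ 0 := hP.b0
  have hcore := core_twoF hM hT hG2 hS hn hdeg
    ((rowA H hH).star_h Y Y) han G₀ N₁ ?_ ?_ ?_ ?_ hl ?_
  · obtain ⟨N₀, h1, h2, h3, h4, h5, h6, h7⟩ := hcore
    refine ⟨N₀, fun u hu => ?_, h2, h3, h4, h5, h6, first_of hg0 h2 h3 h5 h7⟩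
    have h8 := h1 hu
    rw [hN₁] at h8
    exact h8.1
  · rw [← hU]
    exact planeIn_of f hS hP hUi hG₀
  · rw [hG₀, hU]
    exact inf_le_left
  · rw [hN₁]
    exact inf_le_right
  · intro v hv x hx
    rw [hN₁] at hx ⊢
    have hv2 := hv
    rw [hG₀] at hv2
    refine ⟨?_, G₀.mul_mem (G₀.mul_mem hv hx.2) (G₀.inv_mem hv)⟩
    change ex hP (v * x * v⁻¹) ∈ NN f N
    rw [map_mul, map_mul, map_inv]
    exact NN_conj f N hv2.2 hx.1
  · rw [hN₁, Subgroup.inf_relIndex_right, Subgroup.relIndex_comap]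
    refine relIndex_dvd_of (fun v hv x hx => NN_conj f N hv hx) ?_ (NN_relIndexF f N hN)
    rw [hG₀]
    rintro _ ⟨v, hv, rfl⟩
    exact hv.2

/-- The commutators of quasi-reflections. -/
theorem comm_qrsF (hM : MPQF P) (hT : TransF P) (hG2 : MatchedF P)
    (hS : SetF k K D d s) (hn : 2 ≤ n) (hdeg : finrank K D = n ^ 2) (hm : 2 ≤ m)
    (N : Subgroup (SU f H)) [N.Normal] {l : ℕ} (hl : l.Prime) (hN : N.index ∣ l) :
    ∀ a ∈ qrs (rowA H hH), ∀ b ∈ qrs (rowA H hH), a * b * a⁻¹ * b⁻¹ ∈ NN f N := by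
  rintro a ⟨y, t, ht, rfl⟩ b ⟨z, r, hr, rfl⟩
  by_cases hy : y = 0
  · subst hy
    rw [qr_zero, one_mul, inv_one, mul_one, mul_inv_cancel]
    exact one_mem _
  obtain ⟨X, Y, hP, hXY⟩ := exists_plane (H := rowA H hH) (z := z)
    (by rw [Module.finrank_fin_fun]; exact hm) hy
  obtain ⟨u, hu, hua⟩ := ex_surj hP ((rowA H hH).qr_mem y t ht) fun v h1 h2 =>
    qr_fix (hXY v h1 h2).1
  obtain ⟨w, hw, hwb⟩ := ex_surj hP ((rowA H hH).qr_mem z r hr) fun v h1 h2 =>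
    qr_fix (hXY v h1 h2).2
  rw [← mem_Uh_plane hP] at hu hw
  obtain ⟨U, hU⟩ : ∃ U, U = @Uh D _ (twistStar ((rowA H hH).star_h X X) hP.a0)
    ((rowA H hH).h Y Y * ((rowA H hH).h X X)⁻¹) := ⟨_, rfl⟩
  have hUi : ∀ v ∈ U, ex hP v ∈ (rowA H hH).isom := by
    intro v hv
    rw [hU, mem_Uh_plane hP] at hv
    exact ex_mem hP hv
  obtain ⟨G₀, hG₀⟩ : ∃ G₀, G₀ = U ⊓ (GG f H).comap (ex hP) := ⟨_, rfl⟩
  obtain ⟨N₀, hN₀⟩ : ∃ N₀, N₀ = (NN f N).comap (ex hP) ⊓ G₀ := ⟨_, rfl⟩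
  have hS' := setting_twistF hS ((rowA H hH).star_h X X) hP.a0
  have hmain := @main_twoF k K D _ _ _ _ _ (twistStar ((rowA H hH).star_h X X) hP.a0) _ _ _ _ d s
    P hM hT hG2 hS' n hn hdeg _ (star_plane hP) (an_plane hP) G₀ N₀ ?_ ?_ ?_ ?_ l hl ?_ u hu w hw
  · rw [hN₀] at hmain
    have h1 : ex hP (u * w * u⁻¹ * w⁻¹) ∈ NN f N := hmain.1
    rw [map_mul, map_mul, map_mul, map_inv, map_inv, hua, hwb] at h1
    exact h1
  · rw [← hU]
    exact planeIn_of f hS hP hUi hG₀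
  · rw [hG₀, hU]
    exact inf_le_left
  · rw [hN₀]
    exact inf_le_right
  · intro v hv x hx
    rw [hN₀] at hx ⊢
    have hv2 := hv
    rw [hG₀] at hv2
    refine ⟨?_, G₀.mul_mem (G₀.mul_mem hv hx.2) (G₀.inv_mem hv)⟩
    change ex hP (v * x * v⁻¹) ∈ NN f N
    rw [map_mul, map_mul, map_inv]
    exact NN_conj f N hv2.2 hx.1
  · rw [hN₀, Subgroup.inf_relIndex_right, Subgroup.relIndex_comap]
    refine relIndex_dvd_of (fun v hv x hx => NN_conj f N hv hx) ?_ (NN_relIndexF f N hN)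
    rw [hG₀]
    rintro _ ⟨v, hv, rfl⟩
    exact hv.2

/-- A normal subgroup of prime index contains all commutators of unitary elements. -/
theorem contains_commutatorsF (hM : MPQF P) (hT : TransF P) (hG2 : MatchedF P)
    (hS : SetF k K D d s) (hn : 2 ≤ n) (hdeg : finrank K D = n ^ 2) (hm : 2 ≤ m)
    (hH : IsAnisotropicForm H) (N : Subgroup (SU f H)) [N.Normal] {l : ℕ} (hl : l.Prime)
    (hN : N.index ∣ l) : ContainsCommutators f H N := by
  have hcomm := comm_le_of_gen (qrs (rowA H hH)) (fun g hg a ha => by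
      rw [← isom_eq_closure] at hg
      exact qrs_conj hg ha) (NN f N)
    (comm_qrsF f (hH := hH) hM hT hG2 hS hn hdeg hm N hl hN)
  intro a ha b hb
  rw [← isom_eq_closure] at hcomm
  obtain ⟨_, ⟨n, hn, rfl⟩, h⟩ := hcomm (rp a) ((rp_mem hH).mpr ha) (rp b) ((rp_mem hH).mpr hb)
  refine ⟨n, hn, rp_injective ?_⟩
  rw [map_mul, map_mul, map_mul, map_inv, map_inv]
  exact h

end plane

end Vale.Agent.P011.H124.R4
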