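import Vale.Agent.P011.H124.R4b
import Vale.Agent.P011.Three.End

/-!
**Rank two over function fields: a normal subgroup of prime index is the whole group as soon as
the characters kill the isometries of reduced norm one supported on a line** (`Three/End`,
`Three/Kill`, `Three/Fin` without number fields).
-/

open Module Matrix

set_option linter.unusedSectionVars false

namespace Vale.Agent.P011.H124.R4

open Vale.Agent.P011S Vale.Agent.P011.Arith Vale.Agent.P011.Even Vale.Agent.P011.MPQ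
open Vale.Agent.P011.Two Vale.Agent.P011.Two.Hi Vale.Agent.P011.H305 Vale.Agent.P011.H271
open Vale.Agent.P011.Three
open Vale.Agent.P011.RP (rowH rowF)

section main

variable {k K D Ω : Type} [Field k] [GFF k] [Field K] [StarRing K]
  [DivisionRing D] [StarRing D] [Algebra k K] [Algebra k D] [Algebra K D] [IsScalarTower k K D]
  [Field Ω] [Algebra K Ω] {d : kˣ} {s : K} {n : ℕ} (f : D →ₐ[K] Matrix (Fin n) (Fin n) Ω)
  {m : ℕ} {H : Matrix (Fin m) (Fin m) D} {hH : IsAnisotropicForm H} {P : Cond}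

/-- Modulo the subgroup, every isometry is supported on a line. -/
theorem exists_chi1F (hM : MPQF P) (hT : TransF P) (hG2 : MatchedF P)
    (hS : SetF k K D d s) (hn : 2 ≤ n) (hdeg : finrank K D = n ^ 2)
    (hm : 2 ≤ m) (N : Subgroup (SU f H)) [N.Normal] {l : ℕ} (hl : l.Prime) (hN : N.index ∣ l)
    {e : Fin m → D} (he : (rowA H hH).h e e = 1) {A : Type} [CommGroup A]
    (χ : (rowA H hH).isom →* A)
    (hχ : ∀ g (hg : g ∈ (rowA H hH).isom), g ∈ NN f N → χ ⟨g, hg⟩ = 1)
    (g : (rowA H hH).isom) : ∃ t : D, t * star t = 1 ∧ χ g = chi1 χ e he t := by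
  have he0 : e ≠ 0 := by
    rintro rfl
    rw [(rowA H hH).zero_left] at he
    exact zero_ne_one he
  have h1 : ∀ x (hx : x ∈ Subgroup.closure (qrs (rowA H hH))) (hx' : x ∈ (rowA H hH).isom),
      ∃ t : D, t * star t = 1 ∧ χ ⟨x, hx'⟩ = chi1 χ e he t := by
    intro x hx
    induction hx using Subgroup.closure_induction with
    | mem x hx =>
      intro hx'
      obtain ⟨y, z, hz, rfl⟩ := hx
      obtain ⟨Y, hP, hY⟩ := exists_plane_at (H := rowA H hH) (z := y)
        (by rw [Module.finrank_fin_fun]; exact hm) he0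
      obtain ⟨u, hu, hua⟩ := ex_surj hP hx' fun v h1 h2 => qr_fix (hY v h1 h2)
      obtain ⟨N₀, hN₀, -, -, -, -, -, h7⟩ := plane_coreF f hM hT hG2 hS hn hdeg N hl hN hP he
      obtain ⟨t, ht, hmem⟩ := h7 u ((mem_Uh_unit hP he u).mpr hu)
      refine ⟨t, ht, ?_⟩
      rw [chi1_eq χ e he ht]
      have h8 := hN₀ _ hmem
      rw [map_mul, map_inv, ex_dgD hP he ht, hua] at h8
      have hl := lin_mem (H := rowA H hH) e he ht
      have h9 := hχ _ (mul_mem (inv_mem hl) hx') h8
      have h10 : (⟨_, mul_mem (inv_mem hl) hx'⟩ : (rowA H hH).isom) =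
          (⟨_, hl⟩ : (rowA H hH).isom)⁻¹ * ⟨_, hx'⟩ := rfl
      rw [h10, map_mul, map_inv] at h9
      exact (inv_mul_eq_one.mp h9).symm
    | one =>
      intro hx'
      refine ⟨1, by rw [star_one, mul_one], ?_⟩
      rw [chi1_one]
      exact map_one χ
    | mul x y hx hy ihx ihy =>
      intro hx'
      have hxi : x ∈ (rowA H hH).isom := by rw [isom_eq_closure]; exact hx
      have hyi : y ∈ (rowA H hH).isom := by rw [isom_eq_closure]; exact hy
      obtain ⟨t, ht, h1⟩ := ihx hxi
      obtain ⟨r, hr, h2⟩ := ihy hyi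
      refine ⟨t * r, ?_, ?_⟩
      · rw [star_mul]
        calc t * r * (star r * star t) = t * (r * star r) * star t := by simp only [mul_assoc]
          _ = 1 := by rw [hr, mul_one, ht]
      · rw [chi1_mul χ e he ht hr, ← h1, ← h2, ← map_mul]
        rfl
    | inv x hx ih =>
      intro hx'
      have hxi : x ∈ (rowA H hH).isom := by rw [isom_eq_closure]; exact hx
      obtain ⟨t, ht, h1⟩ := ih hxi
      have ht' : star t * star (star t) = 1 := by rw [star_star]; exact star_mul_of ht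
      refine ⟨star t, ht', ?_⟩
      have h2 := chi1_mul χ e he ht ht'
      rw [ht, chi1_one, ← h1] at h2
      have h3 : (⟨x⁻¹, hx'⟩ : (rowA H hH).isom) = (⟨x, hxi⟩ : (rowA H hH).isom)⁻¹ := rfl
      rw [h3, map_inv]
      exact (eq_inv_of_mul_eq_one_right h2.symm).symm
  exact h1 g (by rw [← isom_eq_closure]; exact g.2) g.2

/-- The normal subgroup is the whole group if the characters of the isometry group which are
trivial on it kill the isometries of reduced norm one supported on a line. -/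
theorem top_of_killF (hM : MPQF P) (hT : TransF P) (hG2 : MatchedF P)
    (hS : SetF k K D d s) (hn : 2 ≤ n) (hdeg : finrank K D = n ^ 2)
    (hm : 2 ≤ m) (N : Subgroup (SU f H)) [N.Normal] {l : ℕ} (hl : l.Prime) (hN : N.index ∣ l)
    {e : Fin m → D} (he : (rowA H hH).h e e = 1)
    (hkill : ∀ (A : Type) [CommGroup A] (χ : (rowA H hH).isom →* A),
      (∀ g (hg : g ∈ (rowA H hH).isom), g ∈ NN f N → χ ⟨g, hg⟩ = 1) →
      ∀ t : D, t * star t = 1 → (f t).det = 1 → chi1 χ e he t = 1) : N = ⊤ := by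
  have hcc := contains_commutatorsF f hM hT hG2 hS hn hdeg hm hH N hl hN
  have hcomm : ∀ x ∈ (rowA H hH).isom, ∀ y ∈ (rowA H hH).isom, x * y * x⁻¹ * y⁻¹ ∈ NN f N := by
    intro x hx y hy
    obtain ⟨a, rfl⟩ := rp_surj x
    obtain ⟨b, rfl⟩ := rp_surj y
    obtain ⟨c, hc, hcab⟩ := hcc a ((rp_mem hH).mp hx) b ((rp_mem hH).mp hy)
    refine ⟨_, ⟨c, hc, rfl⟩, ?_⟩
    rw [← map_mul, ← map_inv, ← map_mul, ← map_inv, ← map_mul, ← hcab]
    rfl
  obtain ⟨M, hM'⟩ : ∃ M, M = (NN f N).subgroupOf (rowA H hH).isom := ⟨_, rfl⟩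
  have hMn : M.Normal := by
    refine ⟨fun x hx g => ?_⟩
    rw [hM', Subgroup.mem_subgroupOf] at hx ⊢
    have h1 := mul_mem (hcomm g g.2 x x.2) hx
    rw [inv_mul_cancel_right] at h1
    exact h1
  let _ : CommGroup ((rowA H hH).isom ⧸ M) :=
    { (inferInstance : Group ((rowA H hH).isom ⧸ M)) with
      mul_comm := by
        intro a b
        induction a using QuotientGroup.induction_on with | _ a
        induction b using QuotientGroup.induction_on with | _ b
        change ((a * b : (rowA H hH).isom) : (rowA H hH).isom ⧸ M) =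
          ((b * a : (rowA H hH).isom) : (rowA H hH).isom ⧸ M)
        rw [QuotientGroup.eq, hM', Subgroup.mem_subgroupOf]
        have h1 := hcomm _ (inv_mem b.2) _ (inv_mem a.2)
        rw [inv_inv, inv_inv] at h1
        have h2 : (((a * b)⁻¹ * (b * a) : (rowA H hH).isom) :
            (Fin m → D) ≃ₗ[D] (Fin m → D)) = (b : (Fin m → D) ≃ₗ[D] (Fin m → D))⁻¹ *
              (a : (Fin m → D) ≃ₗ[D] (Fin m → D))⁻¹ * b * a := by
          push_cast
          group
        rw [h2]
        exact h1 }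
  have hχ : ∀ g (hg : g ∈ (rowA H hH).isom), g ∈ NN f N →
      QuotientGroup.mk' M ⟨g, hg⟩ = 1 := by
    intro g hg h
    rw [QuotientGroup.mk'_apply, QuotientGroup.eq_one_iff, hM', Subgroup.mem_subgroupOf]
    exact h
  have hk := hkill ((rowA H hH).isom ⧸ M) (QuotientGroup.mk' M) hχ
  rw [eq_top_iff]
  intro g _
  have hgi : rp (g : (Matrix (Fin m) (Fin m) D)ˣ) ∈ (rowA H hH).isom := (rp_mem hH).mpr g.2.1
  obtain ⟨t, ht, hgt⟩ := exists_chi1F f hM hT hG2 hS hn hdeg hm N hl hN he (QuotientGroup.mk' M) hχ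
    ⟨_, hgi⟩
  have hl := lin_mem (H := rowA H hH) e he ht
  have h1 : (lin (rowA H hH) e he t (star t) ht (star_mul_of ht))⁻¹ *
      rp (g : (Matrix (Fin m) (Fin m) D)ˣ) ∈ NN f N := by
    rw [chi1_eq _ e he ht, QuotientGroup.mk'_apply, QuotientGroup.mk'_apply, eq_comm,
      QuotientGroup.eq, hM', Subgroup.mem_subgroupOf] at hgt
    exact hgt
  have hlG : lin (rowA H hH) e he t (star t) ht (star_mul_of ht) ∈ Hi.GG f H := by
    have h2 : rp (g : (Matrix (Fin m) (Fin m) D)ˣ) ∈ Hi.GG f H := ⟨_, g.2, rfl⟩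
    have h3 := mul_mem h2 (inv_mem (NN_le f N h1))
    rwa [_root_.mul_inv_rev, inv_inv, mul_inv_cancel_left] at h3
  have hdet : (f t).det = 1 := by
    obtain ⟨x, hx, hxl⟩ := hlG
    rw [← redNorm_lin f hm he ht, ← hxl, rm_rp, redNorm_conj f hH hx.1]
    exact hx.2
  rw [hk t ht hdet, QuotientGroup.mk'_apply, QuotientGroup.eq_one_iff, hM',
    Subgroup.mem_subgroupOf] at hgt
  obtain ⟨_, ⟨c, hc, rfl⟩, hcg⟩ := hgt
  have h4 := rp_injective hcg
  have h5 : c = g := Subtype.ext h4
  rwa [← h5]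

end main

end Vale.Agent.P011.H124.R4
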