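import Mathlib

/-!
Group theory for rank two over global function fields: a finite index subgroup with abelian
quotient of the kernel of a homomorphism to an abelian group, when the kernel is covered, modulo
each such subgroup, by two commuting subgroups.
-/

namespace Vale.Agent.P011.H124.R4

variable {W : Type*} [Group W]

/-- A group `U`, a normal subgroup `G` with abelian quotient, and two commuting subgroups each of
which covers the quotient. -/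
structure GD (U G R R' : Subgroup W) : Prop where
  le : G ≤ U
  conj : ∀ v ∈ U, ∀ x ∈ G, v * x * v⁻¹ ∈ G
  comm : ∀ u ∈ U, ∀ v ∈ U, u * v * u⁻¹ * v⁻¹ ∈ G
  rU : R ≤ U
  rU' : R' ≤ U
  cc : ∀ r ∈ R, ∀ r' ∈ R', r * r' = r' * r
  ex : ∀ u ∈ U, ∃ g ∈ G, ∃ r ∈ R, u = g * r
  ex' : ∀ u ∈ U, ∃ g ∈ G, ∃ r ∈ R', u = g * r

variable {U G R R' : Subgroup W}

/-- A subgroup containing the commutators is normal. -/
theorem norm_of {G Q : Subgroup W} (hQG : Q ≤ G)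
    (hab : ∀ a ∈ G, ∀ b ∈ G, a * b * a⁻¹ * b⁻¹ ∈ Q) {x q : W} (hx : x ∈ G) (hq : q ∈ Q) :
    x * q * x⁻¹ ∈ Q := by
  have h1 := mul_mem (hab x hx q (hQG hq)) hq
  have e : x * q * x⁻¹ * q⁻¹ * q = x * q * x⁻¹ := by group
  rwa [e] at h1

/-- The elements of `G` on which the conjugation by `v` is trivial modulo `Q`. -/
theorem exists_fix (hD : GD U G R R') {Q : Subgroup W} (hQG : Q ≤ G)
    (hab : ∀ a ∈ G, ∀ b ∈ G, a * b * a⁻¹ * b⁻¹ ∈ Q) (hfi : Q.relIndex G ≠ 0) {v : W}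
    (hv : v ∈ U) : ∃ N : Subgroup W, N ≤ G ∧ N.relIndex G ≠ 0 ∧
      (∀ a ∈ G, ∀ b ∈ G, a * b * a⁻¹ * b⁻¹ ∈ N) ∧ ∀ x ∈ G, x ∈ N ↔ v * x * v⁻¹ * x⁻¹ ∈ Q := by
  let QG : Subgroup G := Q.subgroupOf G
  have hnorm : QG.Normal := ⟨fun q hq x => by
    change (x * q * x⁻¹ : G) ∈ Q.subgroupOf G
    rw [Subgroup.mem_subgroupOf]
    exact norm_of hQG hab x.2 hq⟩
  have hfin : QG.FiniteIndex := ⟨hfi⟩
  let ψ : G → G := fun x => ⟨v * x * v⁻¹ * (x : W)⁻¹, mul_mem (hD.conj v hv x x.2) (inv_mem x.2)⟩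
  let φ : G →* G ⧸ QG := MonoidHom.mk' (fun x => (ψ x : G ⧸ QG)) (by
    intro x y
    rw [← QuotientGroup.mk_mul, QuotientGroup.eq]
    change ((ψ (x * y))⁻¹ * (ψ x * ψ y) : G) ∈ Q.subgroupOf G
    rw [Subgroup.mem_subgroupOf]
    have e : (((ψ (x * y))⁻¹ * (ψ x * ψ y) : G) : W) =
        (x : W) * ((v * y * v⁻¹ * (y : W)⁻¹)⁻¹ * (x : W)⁻¹ * (v * y * v⁻¹ * (y : W)⁻¹) *
          (x : W)) * (x : W)⁻¹ := by
      change (v * ((x : W) * y) * v⁻¹ * ((x : W) * y)⁻¹)⁻¹ *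
        (v * x * v⁻¹ * (x : W)⁻¹ * (v * y * v⁻¹ * (y : W)⁻¹)) = _
      group
    rw [e]
    refine norm_of hQG hab x.2 ?_
    have h1 := hab _ (inv_mem (ψ y).2) _ (inv_mem x.2)
    rw [inv_inv, inv_inv] at h1
    exact h1)
  refine ⟨φ.ker.map G.subtype, ?_, ?_, ?_, ?_⟩
  · rintro _ ⟨x, -, rfl⟩
    exact x.2
  · have h1 : (φ.ker.map G.subtype).subgroupOf G = φ.ker :=
      Subgroup.comap_map_eq_self_of_injective G.subtype_injective _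
    rw [Subgroup.relIndex, h1]
    exact Subgroup.FiniteIndex.index_ne_zero
  · intro a ha b hb
    have hx : a * b * a⁻¹ * b⁻¹ ∈ G := hQG (hab a ha b hb)
    refine ⟨⟨_, hx⟩, ?_, rfl⟩
    change (ψ ⟨_, hx⟩ : G ⧸ QG) = 1
    rw [QuotientGroup.eq_one_iff, Subgroup.mem_subgroupOf]
    change v * (a * b * a⁻¹ * b⁻¹) * v⁻¹ * (a * b * a⁻¹ * b⁻¹)⁻¹ ∈ Q
    refine mul_mem ?_ (inv_mem (hab a ha b hb))
    have h1 := hab _ (hD.conj v hv a ha) _ (hD.conj v hv b hb)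
    have e : v * a * v⁻¹ * (v * b * v⁻¹) * (v * a * v⁻¹)⁻¹ * (v * b * v⁻¹)⁻¹ =
        v * (a * b * a⁻¹ * b⁻¹) * v⁻¹ := by group
    rwa [e] at h1
  · intro x hx
    constructor
    · rintro ⟨y, hy, rfl⟩
      have h1 : (ψ y : G ⧸ QG) = 1 := hy
      rw [QuotientGroup.eq_one_iff, Subgroup.mem_subgroupOf] at h1
      exact h1
    · intro h
      refine ⟨⟨x, hx⟩, ?_, rfl⟩
      change (ψ ⟨x, hx⟩ : G ⧸ QG) = 1
      rw [QuotientGroup.eq_one_iff, Subgroup.mem_subgroupOf]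
      exact h

/-- If `Q` is central modulo `U`, the commutators of `U` are in `Q`. -/
theorem comm_of_central (hD : GD U G R R') {Q : Subgroup W} (hQG : Q ≤ G)
    (hc : ∀ u ∈ U, ∀ x ∈ G, u * x * u⁻¹ * x⁻¹ ∈ Q) :
    ∀ u ∈ U, ∀ v ∈ U, u * v * u⁻¹ * v⁻¹ ∈ Q := by
  have hn : ∀ u ∈ U, ∀ q ∈ Q, u * q * u⁻¹ ∈ Q := by
    intro u hu q hq
    have h1 := mul_mem (hc u hu q (hQG hq)) hq
    have e : u * q * u⁻¹ * q⁻¹ * q = u * q * u⁻¹ := by group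
    rwa [e] at h1
  intro u hu v hv
  obtain ⟨a, ha, r, hr, rfl⟩ := hD.ex u hu
  obtain ⟨b, hb, r', hr', rfl⟩ := hD.ex' v hv
  have hrr := hD.cc r hr r' hr'
  have h1 : r * b * r⁻¹ * b⁻¹ ∈ Q := hc r (hD.rU hr) b hb
  have h2 : a * (b * r') * a⁻¹ * (b * r')⁻¹ ∈ Q := by
    have h3 := inv_mem (hc (b * r') hv a ha)
    have e : (b * r' * a * (b * r')⁻¹ * a⁻¹)⁻¹ = a * (b * r') * a⁻¹ * (b * r')⁻¹ := by group
    rwa [e] at h3
  have h4 := mul_mem (hn a (hD.le ha) _ h1) h2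
  have e : a * r * (b * r') * (a * r)⁻¹ * (b * r')⁻¹ =
      a * (r * b * r⁻¹ * b⁻¹) * a⁻¹ * (a * (b * r') * a⁻¹ * (b * r')⁻¹) := by
    have e1 : r * (b * r') * r⁻¹ = r * b * r⁻¹ * r' := by
      have e2 : r' * r⁻¹ = r⁻¹ * r' := by
        rw [eq_inv_mul_iff_mul_eq, ← mul_assoc, hrr, mul_inv_cancel_right]
      calc r * (b * r') * r⁻¹ = r * b * (r' * r⁻¹) := by group
        _ = _ := by rw [e2]; group
    calc a * r * (b * r') * (a * r)⁻¹ * (b * r')⁻¹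
        = a * (r * (b * r') * r⁻¹) * a⁻¹ * (b * r')⁻¹ := by group
      _ = _ := by rw [e1]; group
  rw [e]
  exact h4

/-- **The group theory of rank two.** -/
theorem top_of_data (hD : GD U G R R')
    (hT : ∀ Q' : Subgroup W, Q' ≤ G → (∀ a ∈ G, ∀ b ∈ G, a * b * a⁻¹ * b⁻¹ ∈ Q') →
      Q'.relIndex G ≠ 0 → ∀ x ∈ G, ∃ q ∈ Q', ∃ r ∈ R, ∃ r' ∈ R', x = q * (r * r'))
    (hE : ∀ Q' : Subgroup W, Q' ≤ G → (∀ u ∈ U, ∀ v ∈ U, u * v * u⁻¹ * v⁻¹ ∈ Q') → G ≤ Q')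
    {Q : Subgroup W} (hQG : Q ≤ G) (hab : ∀ a ∈ G, ∀ b ∈ G, a * b * a⁻¹ * b⁻¹ ∈ Q)
    (hfi : Q.relIndex G ≠ 0) : G ≤ Q := by
  refine hE Q hQG (comm_of_central hD hQG fun v hv => ?_)
  obtain ⟨N, hNG, hNf, hNa, hN⟩ := exists_fix hD hQG hab hfi hv
  suffices h : G ≤ N from fun x hx => (hN x hx).mp (h hx)
  -- the elements of the two subgroups
  have hR : ∀ s ∈ G, s ∈ R → s ∈ N := by
    intro s hs hsR
    obtain ⟨b, hb, r', hr', rfl⟩ := hD.ex' v hv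
    rw [hN s hs]
    have e : b * r' * s * (b * r')⁻¹ * s⁻¹ = b * s * b⁻¹ * s⁻¹ := by
      have e1 : r' * s * r'⁻¹ = s := by rw [← hD.cc s hsR r' hr', mul_inv_cancel_right]
      calc b * r' * s * (b * r')⁻¹ * s⁻¹ = b * (r' * s * r'⁻¹) * b⁻¹ * s⁻¹ := by group
        _ = _ := by rw [e1]
    rw [e]
    exact hab b hb s hs
  have hR' : ∀ s ∈ G, s ∈ R' → s ∈ N := by
    intro s hs hsR
    obtain ⟨b, hb, r, hr, rfl⟩ := hD.ex v hv
    rw [hN s hs]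
    have e : b * r * s * (b * r)⁻¹ * s⁻¹ = b * s * b⁻¹ * s⁻¹ := by
      have e1 : r * s * r⁻¹ = s := by rw [hD.cc r hr s hsR, mul_inv_cancel_right]
      calc b * r * s * (b * r)⁻¹ * s⁻¹ = b * (r * s * r⁻¹) * b⁻¹ * s⁻¹ := by group
        _ = _ := by rw [e1]
    rw [e]
    exact hab b hb s hs
  refine hE N hNG (comm_of_central hD hNG fun u hu x hx => ?_)
  -- the smaller subgroup
  obtain ⟨M, hMG, hMf, hMa, hM⟩ := exists_fix hD hNG hNa hNf hu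
  obtain ⟨q, hq, r, hr, r', hr', hxe⟩ := hT (N ⊓ M) (inf_le_left.trans hNG)
    (fun a ha b hb => ⟨hNa a ha b hb, hMa a ha b hb⟩)
    (Subgroup.relIndex_inf_ne_zero hNf hMf) x hx
  have hqG : q ∈ G := hNG hq.1
  have hs : r * r' ∈ G := by
    have h1 := mul_mem (inv_mem hqG) hx
    rwa [hxe, inv_mul_cancel_left] at h1
  have h1 : u * q * u⁻¹ * q⁻¹ ∈ N := (hM q hqG).mp hq.2
  have h2 : u * (r * r') * u⁻¹ * (r * r')⁻¹ ∈ N := by
    obtain ⟨b, hb, w, hw, rfl⟩ := hD.ex u hu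
    have h3 : w * r * w⁻¹ * r⁻¹ ∈ N := hR _ (hD.comm w (hD.rU hw) r (hD.rU hr))
      (mul_mem (mul_mem (mul_mem hw hr) (inv_mem hw)) (inv_mem hr))
    have e1 : w * (r * r') * w⁻¹ = w * r * w⁻¹ * r⁻¹ * (r * r') := by
      have e2 : r' * w⁻¹ = w⁻¹ * r' := by
        rw [eq_inv_mul_iff_mul_eq, ← mul_assoc, hD.cc w hw r' hr', mul_inv_cancel_right]
      calc w * (r * r') * w⁻¹ = w * r * (r' * w⁻¹) := by group
        _ = _ := by rw [e2]; group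
    have e3 : b * w * (r * r') * (b * w)⁻¹ * (r * r')⁻¹ =
        b * (w * r * w⁻¹ * r⁻¹) * b⁻¹ * (b * (r * r') * b⁻¹ * (r * r')⁻¹) := by
      calc b * w * (r * r') * (b * w)⁻¹ * (r * r')⁻¹
          = b * (w * (r * r') * w⁻¹) * b⁻¹ * (r * r')⁻¹ := by group
        _ = _ := by rw [e1]; group
    rw [e3]
    exact mul_mem (norm_of hNG hNa hb h3) (hNa b hb _ hs)
  have e : u * x * u⁻¹ * x⁻¹ = u * q * u⁻¹ * q⁻¹ *
      (q * (u * (r * r') * u⁻¹ * (r * r')⁻¹) * q⁻¹) := by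
    rw [hxe]
    group
  rw [e]
  exact mul_mem h1 (norm_of hNG hNa hqG h2)

end Vale.Agent.P011.H124.R4
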