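import Vale.Agent.P011.H948.R3S
import Vale.Agent.P011.H699.G0
import Vale.Agent.P011.Two.HigherA
import Vale.Agent.P011.Three.Defs

/-!
Characters of the isometry group of an anisotropic hermitian plane, without places: the value at
an isometry is the value of a homomorphism of the multiplicative group, at an element which
determines the reduced norm of the isometry.
-/

open Module Matrix

set_option linter.unusedSectionVars false

namespace Vale.Agent.P011.H124.R4

open Vale.Agent.P011S Vale.Agent.P011.Two Vale.Agent.P011.H699 Vale.Agent.P011.H305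
open Vale.Agent.P011.Two.Hi (qrs isom_eq_closure)
open Vale.Agent.P011.H948.R3 (StepAB relE_of_steps exists_perp lemB sym_of_B exists_F0_empty
  star_smul_of)
open Vale.Agent.P011.Three (psi psi_eq chi1 chi1_eq chi1_mul psi_lin psi_star' psi_sq')

section form

variable {D : Type} [DivisionRing D] [StarRing D] {g : D}

/-- The hermitian plane as an anisotropic form. -/
def planeA (hg : star g = g) (han : An g) : AForm D (D × D) where
  h := hh g
  add_left' x y z := by
    simp only [hh, Prod.fst_add, Prod.snd_add]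
    noncomm_ring
  smul_left' a x y := by
    simp only [hh, Prod.smul_fst, Prod.smul_snd, smul_eq_mul]
    noncomm_ring
  star_h' x y := hh_symm hg x y
  anis' := han

theorem planeA_h (hg : star g = g) (han : An g) (x y : D × D) :
    (planeA hg han).h x y = hh g x y := rfl

theorem mem_isom_planeA (hg : star g = g) (han : An g) {u : (D × D) ≃ₗ[D] (D × D)} :
    u ∈ (planeA hg han).isom ↔ u ∈ Uh g := Iff.rfl

theorem ne_zero_of_An (han : An g) : g ≠ 0 := by
  rintro rfl
  have h := han (0, 1) (by simp [hh])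
  exact one_ne_zero (congrArg Prod.snd h)

variable {K Ω : Type} [Field K] [Algebra K D] [Field Ω] [Algebra K Ω] {n : ℕ}
  (f : D →ₐ[K] Matrix (Fin n) (Fin n) Ω)

/-- The reduced norm of a quasi-reflection. -/
theorem nrd2_qr (hg : star g = g) (han : An g) (y : D × D) {z : D}
    (hz : z + star z = (planeA hg han).h y y) (hz0 : z ≠ 0) :
    nrd2 f ((planeA hg han).qr y z hz) = (f (-(star z * z⁻¹))).det := by
  have e1 : (planeA hg han).qr y z hz (1, 0) =
      (1 - star y.1 * z⁻¹ * y.1, -(star y.1 * z⁻¹ * y.2)) := by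
    rw [(planeA hg han).qr_apply, planeA_h, hh_left]
    ext <;> simp
  have e2 : (planeA hg han).qr y z hz (0, 1) =
      (-(g * star y.2 * z⁻¹ * y.1), 1 - g * star y.2 * z⁻¹ * y.2) := by
    rw [(planeA hg han).qr_apply, planeA_h, hh_left']
    ext <;> simp
  have e3 : blk f ((planeA hg han).qr y z hz) =
      1 - fromRows (f (star y.1 * z⁻¹)) (f (g * star y.2 * z⁻¹)) * fromCols (f y.1) (f y.2) := by
    rw [blk, e1, e2, ← fromBlocks_one, fromRows_mul_fromCols,
      sub_eq_add_neg (fromBlocks 1 0 0 1), fromBlocks_neg, fromBlocks_add]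
    simp only [map_add, map_neg, map_mul, map_one, zero_add, sub_eq_add_neg]
  have e4 : fromCols (f y.1) (f y.2) * fromRows (f (star y.1 * z⁻¹)) (f (g * star y.2 * z⁻¹)) =
      f ((z + star z) * z⁻¹) := by
    rw [fromCols_mul_fromRows, ← map_mul, ← map_mul, ← map_add, hz, planeA_h, hh]
    congr 1
    noncomm_ring
  rw [nrd2, e3, det_one_sub_mul_comm, e4, ← map_one f, ← map_sub]
  congr 2
  rw [add_mul, mul_inv_cancel₀ hz0]
  abel

end form

section main

variable {k K D Ω : Type} [Field k] [Infinite k] [Field K] [StarRing K] [DivisionRing D]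
  [StarRing D] [Algebra k K] [Algebra k D] [Algebra K D] [IsScalarTower k K D] [Field Ω]
  [Algebra K Ω] {d : kˣ} {s : K} {n : ℕ} {g : D}

/-- The extension of the classes of quasi-reflections. -/
theorem exists_F0 (hS : SetF k K D d s) (hn : 0 < n)
    (hg : star g = g) (han : An g) (f : D →ₐ[K] Matrix (Fin n) (Fin n) Ω) {A : Type}
    [CommGroup A] (χ : (planeA hg han).isom →* A) (hAB : StepAB D)
    (hlen : ∀ a : D, star a = a → a ≠ 0 → ∃ y : D × D, hh g y y = a) :
    ∃ F0 : D → A, (∀ a b : D, a ≠ 0 → b ≠ 0 → F0 (a * b) = F0 a * F0 b) ∧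
      (∀ z : D, z + star z ≠ 0 → F0 z = psi (planeA hg han) χ z * (psi (planeA hg han) χ 1)⁻¹) ∧
      ∀ s : D, s ≠ 0 → star s = s → F0 s = 1 := by
  have := hS.fin
  have : FiniteDimensional k D := H428.fin_kD hS
  have hk : ∀ c : k, star (algebraMap k K c) = algebraMap k K c := hS.star_algebraMap
  have hss : ∀ c : K, star (algebraMap K D c) = algebraMap K D (star c) := H428.star_algK hS
  have h2 : (2 : k) ≠ 0 := hS.two_ne
  have hK : ∃ c : K, star c ≠ c := ⟨s, hS.star_ne⟩
  have h2K : (2 : K) ≠ 0 := by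
    have h := (_root_.map_ne_zero (algebraMap k K)).2 h2
    rwa [map_ofNat] at h
  have h20 : (2 : D) ≠ 0 := by
    have h := (_root_.map_ne_zero (algebraMap K D)).2 h2K
    rwa [map_ofNat] at h
  have hV : 2 ≤ finrank D (D × D) := by
    rw [finrank_prod, finrank_self]
  have hR := relE_of_steps χ h20 hAB hlen fun x => exists_perp (planeA hg han) hV x
  have hB : ∀ z z' r : D, z + star z ≠ 0 → z' + star z' ≠ 0 → z * r + star (z * r) ≠ 0 →
      z' * r + star (z' * r) ≠ 0 → psi (planeA hg han) χ (z * r) * (psi (planeA hg han) χ z)⁻¹ =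
        psi (planeA hg han) χ (z' * r) * (psi (planeA hg han) χ z')⁻¹ :=
    fun z z' r hz hz' hzr hzr' => lemB hk hss h2 hK hn f hR hz hz' hzr hzr'
  have hD : ∀ s : D, star s = s → s ≠ 0 →
      psi (planeA hg han) χ s = psi (planeA hg han) χ 1 := fun s hs hs0 =>
    sym_of_B hss h2K hK χ hlen hB hs hs0
  exact exists_F0_empty (star_smul_of (D := D) hk hss) h20 _ hB hD

/-- The class of the reflections. -/
theorem psi_one (hS : SetF k K D d s) (hg : star g = g) (han : An g) {A : Type} [CommGroup A]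
    (χ : (planeA hg han).isom →* A) {F0 : D → A}
    (h1 : ∀ a b : D, a ≠ 0 → b ≠ 0 → F0 (a * b) = F0 a * F0 b)
    (h2 : ∀ z : D, z + star z ≠ 0 → F0 z = psi (planeA hg han) χ z * (psi (planeA hg han) χ 1)⁻¹)
    (h3 : ∀ s : D, s ≠ 0 → star s = s → F0 s = 1) :
    psi (planeA hg han) χ 1 = F0 (algebraMap K D s) := by
  have hss : ∀ c : K, star (algebraMap K D c) = algebraMap K D (star c) := H428.star_algK hS
  have h2K : (2 : K) ≠ 0 := by
    have h := (_root_.map_ne_zero (algebraMap k K)).2 hS.two_ne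
    rwa [map_ofNat] at h
  have hinj : Function.Injective (algebraMap K D) := (algebraMap K D).injective
  have hs0 : s ≠ 0 := hS.s_ne
  have hs1 : 1 - s ≠ 0 := by
    intro h
    apply hS.star_ne
    rw [← sub_eq_zero.mp h, star_one]
  have hs2 : 1 + s ≠ 0 := by
    intro h
    apply hS.star_ne
    rw [← neg_eq_of_add_eq_zero_right h, star_neg, star_one]
  -- the vector
  obtain ⟨H, hH⟩ : ∃ H, H = planeA hg han := ⟨_, rfl⟩
  have he : (planeA hg han).h (1, 0) (1, 0) = 1 := by
    rw [planeA_h, hh_left, star_one]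
  -- the element of norm one
  obtain ⟨τ, hτ⟩ : ∃ τ : K, τ = (1 + s) * (1 - s)⁻¹ := ⟨_, rfl⟩
  have hτs : star τ = (1 - s) * (1 + s)⁻¹ := by
    rw [hτ, star_mul, star_inv₀, star_sub, star_add, star_one, hS.star_s, sub_neg_eq_add,
      ← sub_eq_add_neg, mul_comm]
  have hτ1 : τ * star τ = 1 := by
    rw [hτs, hτ]
    field_simp
  have ht : algebraMap K D τ * star (algebraMap K D τ) = 1 := by
    rw [hss, ← map_mul, hτ1, map_one]
  have hp : 1 + τ = 2 * (1 - s)⁻¹ := by
    rw [hτ]
    field_simp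
    ring
  have hm : 1 - τ = -(2 * s * (1 - s)⁻¹) := by
    rw [hτ]
    field_simp
    ring
  have hp0 : 1 + τ ≠ 0 := by
    rw [hp]
    exact mul_ne_zero h2K (inv_ne_zero hs1)
  have hm0 : 1 - τ ≠ 0 := by
    rw [hm]
    exact neg_ne_zero.mpr (mul_ne_zero (mul_ne_zero h2K hs0) (inv_ne_zero hs1))
  have hT0 : (1 : D) + algebraMap K D τ ≠ 0 := by
    rw [← map_one (algebraMap K D), ← map_add]
    exact (_root_.map_ne_zero _).mpr hp0
  have hT0' : (1 : D) + -algebraMap K D τ ≠ 0 := by
    rw [← map_one (algebraMap K D), ← map_neg, ← map_add, ← sub_eq_add_neg]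
    exact (_root_.map_ne_zero _).mpr hm0
  have hTn : (-algebraMap K D τ) * star (-algebraMap K D τ) = 1 := by
    rw [star_neg, neg_mul_neg, ht]
  have h11 : (1 : D) * star (1 : D) = 1 := by rw [star_one, mul_one]
  have h20 : (1 : D) + 1 ≠ 0 := by
    rw [← map_one (algebraMap K D), ← map_add, one_add_one_eq_two]
    exact (_root_.map_ne_zero _).mpr h2K
  have hm1 : (-1 : D) * star (-1 : D) = 1 := by
    rw [star_neg, star_one, neg_mul_neg, mul_one]
  have hre : ∀ t : D, t * star t = 1 → 1 + t ≠ 0 → (1 + t)⁻¹ + star (1 + t)⁻¹ ≠ 0 := by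
    intro t ht ht1
    have hs : 1 + star t ≠ 0 := by
      intro h
      apply ht1
      have := congrArg star h
      rwa [star_add, star_one, star_star, star_zero] at this
    have h4 : (1 + t)⁻¹ + star (1 + t)⁻¹ = 1 := by
      rw [star_inv₀, star_add, star_one]
      apply mul_left_cancel₀ ht1
      apply mul_right_cancel₀ hs
      have e1 : (1 + t) * ((1 + t)⁻¹ + (1 + star t)⁻¹) * (1 + star t) =
          (1 + t) * (1 + t)⁻¹ * (1 + star t) + (1 + t) * ((1 + star t)⁻¹ * (1 + star t)) := by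
        noncomm_ring
      rw [e1, mul_inv_cancel₀ ht1, inv_mul_cancel₀ hs, mul_one, one_mul]
      calc 1 + star t + (1 + t) = 1 + t + star t + 1 := by abel
        _ = 1 + t + star t + t * star t := by rw [ht]
        _ = _ := by noncomm_ring
    rw [h4]
    exact one_ne_zero
  obtain ⟨p, hpd⟩ : ∃ p, p = psi (planeA hg han) χ 1 := ⟨_, rfl⟩
  have hp2 : p * p = 1 := by rw [hpd]; exact psi_sq' χ (star_one D)
  have hpi : p⁻¹ = p := inv_eq_of_mul_eq_one_left hp2
  have hpsi : ∀ z : D, z + star z ≠ 0 → psi (planeA hg han) χ z = F0 z * p := by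
    intro z hz
    rw [h2 z hz, ← hpd, inv_mul_cancel_right]
  -- the values of the character
  have c1 : chi1 χ (1, 0) he (-1) = p := by
    rw [← psi_lin χ (1, 0) he h11 h20, hpsi _ (hre 1 h11 h20), h3 _ (inv_ne_zero h20), one_mul]
    rw [star_inv₀, star_add, star_one]
  have c2 : chi1 χ (1, 0) he (-algebraMap K D τ) = F0 (1 + algebraMap K D τ)⁻¹ * p := by
    rw [← psi_lin χ (1, 0) he ht hT0, hpsi _ (hre _ ht hT0)]
  have c3 : chi1 χ (1, 0) he (algebraMap K D τ) = F0 (1 + -algebraMap K D τ)⁻¹ * p := by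
    have h4 := psi_lin χ (1, 0) he hTn hT0'
    rw [neg_neg] at h4
    rw [← h4, hpsi _ (hre _ hTn hT0')]
  have c4 := chi1_mul χ (1, 0) he hm1 ht
  rw [neg_one_mul, c1, c2, c3, mul_comm p, mul_assoc, hp2, mul_one] at c4
  -- the quotient
  have hSne : algebraMap K D s ≠ 0 := (_root_.map_ne_zero _).mpr hs0
  have e1 : (1 + -algebraMap K D τ)⁻¹ = (1 + algebraMap K D τ)⁻¹ *
      (algebraMap K D s * algebraMap K D (-(s ^ 2)⁻¹)) := by
    rw [← map_one (algebraMap K D), ← map_neg, ← map_add, ← map_add, ← sub_eq_add_neg,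
      ← map_inv₀, ← map_inv₀, ← map_mul, ← map_mul, hp, hm]
    congr 1
    rw [inv_neg, mul_inv, mul_inv, mul_inv]
    field_simp
  have hsym : star (algebraMap K D (-(s ^ 2)⁻¹)) = algebraMap K D (-(s ^ 2)⁻¹) := by
    rw [hss, star_neg, star_inv₀, star_pow, hS.star_s, neg_sq]
  have hne : algebraMap K D (-(s ^ 2)⁻¹) ≠ 0 :=
    (_root_.map_ne_zero _).mpr (neg_ne_zero.mpr (inv_ne_zero (pow_ne_zero 2 hs0)))
  rw [e1, h1 _ _ (inv_ne_zero hT0) (mul_ne_zero hSne hne), h1 _ _ hSne hne, h3 _ hne hsym,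
    mul_one] at c4
  rw [← hpd]
  exact mul_left_cancel c4

/-- **The values of a character of the isometry group.** -/
theorem exists_Z (hS : SetF k K D d s) (hg : star g = g) (han : An g)
    (f : D →ₐ[K] Matrix (Fin n) (Fin n) Ω) {A : Type} [CommGroup A]
    (χ : (planeA hg han).isom →* A) {F0 : D → A}
    (h1 : ∀ a b : D, a ≠ 0 → b ≠ 0 → F0 (a * b) = F0 a * F0 b)
    (h2 : ∀ z : D, z + star z ≠ 0 → F0 z = psi (planeA hg han) χ z * (psi (planeA hg han) χ 1)⁻¹)
    (h3 : ∀ s : D, s ≠ 0 → star s = s → F0 s = 1) :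
    ∀ x (hx : x ∈ (planeA hg han).isom), ∃ Z : D, Z ≠ 0 ∧ χ ⟨x, hx⟩ = F0 Z ∧
      nrd2 f x * (f Z).det = (f (star Z)).det := by
  have hss : ∀ c : K, star (algebraMap K D c) = algebraMap K D (star c) := H428.star_algK hS
  have hp1 := psi_one hS hg han χ h1 h2 h3
  have hF1 : F0 1 = 1 := h3 1 one_ne_zero (star_one D)
  obtain ⟨S, hSd⟩ : ∃ S : D, S = algebraMap K D s := ⟨_, rfl⟩
  have hS0 : S ≠ 0 := by rw [hSd]; exact (_root_.map_ne_zero _).mpr hS.s_ne
  have hSs : star S = -S := by rw [hSd, hss, hS.star_s, map_neg]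
  have hSc : ∀ x, S * x = x * S := fun x => by rw [hSd]; exact Algebra.commutes s x
  rw [← hSd] at hp1
  -- the trivial isometry
  have htriv : ∀ x (hx : x ∈ (planeA hg han).isom), x = 1 → ∃ Z : D, Z ≠ 0 ∧ χ ⟨x, hx⟩ = F0 Z ∧
      nrd2 f x * (f Z).det = (f (star Z)).det := by
    rintro x hx rfl
    refine ⟨1, one_ne_zero, ?_, ?_⟩
    · rw [hF1]
      exact map_one χ
    · rw [nrd2_one, star_one, one_mul]
  have hcl : ∀ x ∈ Subgroup.closure (qrs (planeA hg han)), ∀ hx : x ∈ (planeA hg han).isom,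
      ∃ Z : D, Z ≠ 0 ∧ χ ⟨x, hx⟩ = F0 Z ∧ nrd2 f x * (f Z).det = (f (star Z)).det := by
    intro x hx
    induction hx using Subgroup.closure_induction with
    | mem x hx =>
      obtain ⟨y, z, hz, rfl⟩ := hx
      intro hxi
      rcases eq_or_ne y 0 with rfl | hy
      · refine htriv _ hxi ?_
        ext1 v
        rw [(planeA hg han).qr_apply, smul_zero, sub_zero]
        rfl
      · have hz1 : z + star z ≠ 0 := by rw [hz]; exact (planeA hg han).self_ne_zero hy
        have hz0 : z ≠ 0 := by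
          rintro rfl
          exact hz1 (by simp)
        refine ⟨z * S, mul_ne_zero hz0 hS0, ?_, ?_⟩
        · rw [h1 _ _ hz0 hS0, h2 z hz1, hp1, inv_mul_cancel_right, psi_eq hz]
        · rw [nrd2_qr f hg han y hz hz0, ← det_mul, ← map_mul, star_mul, hSs]
          congr 2
          rw [neg_mul, neg_mul, hSc]
          congr 1
          rw [mul_assoc, inv_mul_cancel_left₀ hz0]
    | one => exact fun hx => htriv _ hx rfl
    | mul x y hx hy ihx ihy =>
      intro hxy
      have hxi : x ∈ (planeA hg han).isom := by rw [isom_eq_closure]; exact hx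
      have hyi : y ∈ (planeA hg han).isom := by rw [isom_eq_closure]; exact hy
      obtain ⟨Z, hZ0, hZ1, hZ2⟩ := ihx hxi
      obtain ⟨Y, hY0, hY1, hY2⟩ := ihy hyi
      refine ⟨Z * Y, mul_ne_zero hZ0 hY0, ?_, ?_⟩
      · rw [h1 _ _ hZ0 hY0, ← hZ1, ← hY1, ← map_mul]
        rfl
      · rw [nrd2_mul, map_mul, det_mul, star_mul, map_mul, det_mul, ← hZ2, ← hY2]
        ring
    | inv x hx ihx =>
      intro hxy
      have hxi : x ∈ (planeA hg han).isom := by rw [isom_eq_closure]; exact hx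
      obtain ⟨Z, hZ0, hZ1, hZ2⟩ := ihx hxi
      have hZi := inv_ne_zero hZ0
      refine ⟨Z⁻¹, hZi, ?_, ?_⟩
      · have e1 : F0 Z * F0 Z⁻¹ = 1 := by
          rw [← h1 _ _ hZ0 hZi, mul_inv_cancel₀ hZ0, hF1]
        rw [eq_inv_of_mul_eq_one_right e1, ← hZ1, ← map_inv]
        rfl
      · have e1 : (f Z).det * (f Z⁻¹).det = 1 := by
          rw [← det_mul, ← map_mul, mul_inv_cancel₀ hZ0, map_one, det_one]
        have e2 : (f (star Z)).det * (f (star Z⁻¹)).det = 1 := by
          rw [← det_mul, ← map_mul, ← star_mul, inv_mul_cancel₀ hZ0, star_one, map_one, det_one]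
        have e3 := nrd2_mul_inv f x
        have e4 := nrd2_ne_zero f x
        have e5 : (f Z).det ≠ 0 := left_ne_zero_of_mul_eq_one e1
        apply mul_left_cancel₀ (mul_ne_zero e4 e5)
        calc nrd2 f x * (f Z).det * (nrd2 f x⁻¹ * (f Z⁻¹).det)
            = (nrd2 f x * nrd2 f x⁻¹) * ((f Z).det * (f Z⁻¹).det) := by ring
          _ = 1 := by rw [e3, e1, one_mul]
          _ = _ := by rw [hZ2, e2]
  intro x hx
  refine hcl x ?_ hx
  rw [← isom_eq_closure]
  exact hx

/-- **(E)**, with the triviality of the reduced unitary Whitehead group and the universality of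
the form as hypotheses. -/
theorem top_of_comm_gen (hS : SetF k K D d s) (hn : 0 < n)
    (hg : star g = g) (han : An g) (f : D →ₐ[K] Matrix (Fin n) (Fin n) Ω)
    (Q : Subgroup ((D × D) ≃ₗ[D] (D × D)))
    (hcc : ∀ u ∈ Uh g, ∀ v ∈ Uh g, u * v * u⁻¹ * v⁻¹ ∈ Q) (hAB : StepAB D)
    (hlen : ∀ a : D, star a = a → a ≠ 0 → ∃ y : D × D, hh g y y = a)
    (hsuk : ∀ (A : Type) [CommGroup A] (F0 : D → A),
      (∀ a b : D, a ≠ 0 → b ≠ 0 → F0 (a * b) = F0 a * F0 b) →
      (∀ s : D, s ≠ 0 → star s = s → F0 s = 1) → ∀ Z : D, Z ≠ 0 →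
      (f (star Z)).det = (f Z).det → F0 Z = 1) : G0 f g ≤ Q := by
  intro x hx
  obtain ⟨hxU, hxn⟩ := hx
  have hxi : x ∈ (planeA hg han).isom := hxU
  let χ : (planeA hg han).isom →* Abelianization (planeA hg han).isom := Abelianization.of
  obtain ⟨F0, h1, h2, h3⟩ := exists_F0 hS hn hg han f χ hAB hlen
  obtain ⟨Z, hZ0, hZ1, hZ2⟩ := exists_Z hS hg han f χ h1 h2 h3 x hxi
  rw [hxn, one_mul] at hZ2
  rw [hsuk _ F0 h1 h3 Z hZ0 hZ2.symm] at hZ1
  have h4 : (⟨x, hxi⟩ : (planeA hg han).isom) ∈ commutator (planeA hg han).isom := by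
    rw [← Abelianization.ker_of]
    exact hZ1
  have h5 : commutator (planeA hg han).isom ≤ Q.subgroupOf (planeA hg han).isom := by
    rw [commutator_def, Subgroup.commutator_le]
    intro a _ b _
    rw [Subgroup.mem_subgroupOf]
    exact hcc _ a.2 _ b.2
  exact h5 h4

end main

end Vale.Agent.P011.H124.R4
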