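import Vale.Agent.P011.H124.R4d
import Vale.Agent.P011.H124.R4e
import Vale.Agent.P011.H505.WangG
import Vale.Agent.P011.H428.RepF
import Vale.Agent.P011.Two.Comm

/-!
The special unitary group of an anisotropic hermitian plane over a global function field has no
proper subgroup of finite index with abelian quotient, given the transitivity of such subgroups on
the lines of an orbit and the two steps of the path.
-/

open Module Matrix

set_option linter.unusedSectionVars false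

namespace Vale.Agent.P011.H124.R4

open Vale.Agent.P011S Vale.Agent.P011.Two Vale.Agent.P011.H699 Vale.Agent.P011.H305
open Vale.Agent.P011.H271 (GFF)
open Vale.Agent.P011.H948.R3 (StepAB)

section stab

variable {D : Type} [DivisionRing D] [StarRing D] {g : D}

/-- The isometries which fix the second vector. -/
def R1 (g : D) : Subgroup ((D × D) ≃ₗ[D] (D × D)) where
  carrier := {u | u ∈ Uh g ∧ u (0, 1) = (0, 1)}
  mul_mem' := by
    rintro u v ⟨hu, hu'⟩ ⟨hv, hv'⟩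
    refine ⟨mul_mem hu hv, ?_⟩
    change u (v (0, 1)) = _
    rw [hv', hu']
  one_mem' := ⟨one_mem _, rfl⟩
  inv_mem' := by
    rintro u ⟨hu, hu'⟩
    refine ⟨inv_mem hu, ?_⟩
    have h3 : u⁻¹ (u (0, 1)) = (0, 1) := u.symm_apply_apply _
    rwa [hu'] at h3

/-- The isometries which fix the first vector. -/
def R2 (g : D) : Subgroup ((D × D) ≃ₗ[D] (D × D)) where
  carrier := {u | u ∈ Uh g ∧ u (1, 0) = (1, 0)}
  mul_mem' := by
    rintro u v ⟨hu, hu'⟩ ⟨hv, hv'⟩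
    refine ⟨mul_mem hu hv, ?_⟩
    change u (v (1, 0)) = _
    rw [hv', hu']
  one_mem' := ⟨one_mem _, rfl⟩
  inv_mem' := by
    rintro u ⟨hu, hu'⟩
    refine ⟨inv_mem hu, ?_⟩
    have h3 : u⁻¹ (u (1, 0)) = (1, 0) := u.symm_apply_apply _
    rwa [hu'] at h3

theorem isDiag_R1 (hg0 : g ≠ 0) {u : (D × D) ≃ₗ[D] (D × D)} (hu : u ∈ R1 g) :
    ∃ t, IsDiag t 1 u := by
  obtain ⟨hu, h2⟩ := hu
  have h3 := hu (1, 0) (0, 1)
  rw [h2, hh_right', hh_right', zero_mul] at h3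
  have h4 : (u (1, 0)).2 = 0 := (mul_eq_zero.mp h3).resolve_right hg0
  exact ⟨(u (1, 0)).1, Prod.ext rfl h4, h2⟩

theorem isDiag_R2 {u : (D × D) ≃ₗ[D] (D × D)} (hu : u ∈ R2 g) : ∃ t', IsDiag 1 t' u := by
  obtain ⟨-, t', -, h⟩ := isDiag_of_line hu.1 hu.2
  exact ⟨t', h⟩

theorem isDiag_mul {t t' r r' : D} {u v : (D × D) ≃ₗ[D] (D × D)} (hu : IsDiag t t' u)
    (hv : IsDiag r r' v) : IsDiag (r * t) (r' * t') (u * v) := by
  constructor
  · change u (v (1, 0)) = _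
    rw [hv.1, map_eq, hu.1, hu.2]
    simp
  · change u (v (0, 1)) = _
    rw [hv.2, map_eq, hu.1, hu.2]
    simp

theorem isDiag_unique {t t' : D} {u v : (D × D) ≃ₗ[D] (D × D)} (hu : IsDiag t t' u)
    (hv : IsDiag t t' v) : u = v := by
  ext1 x
  rw [map_eq u, map_eq v, hu.1, hu.2, hv.1, hv.2]

theorem R1_R2_comm (hg0 : g ≠ 0) {u v : (D × D) ≃ₗ[D] (D × D)} (hu : u ∈ R1 g)
    (hv : v ∈ R2 g) : u * v = v * u := by
  obtain ⟨t, ht⟩ := isDiag_R1 hg0 hu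
  obtain ⟨t', ht'⟩ := isDiag_R2 hv
  have h1 := isDiag_mul ht ht'
  have h2 := isDiag_mul ht' ht
  rw [one_mul, mul_one] at h1 h2
  exact isDiag_unique h1 h2

end stab

variable {k K D Ω : Type} [Field k] [GFF k] [Field K] [StarRing K] [DivisionRing D]
  [StarRing D] [Algebra k K] [Algebra k D] [Algebra K D] [IsScalarTower k K D] [Field Ω]
  [Algebra K Ω] {d : kˣ} {s : K} {n : ℕ} {g : D}

/-- Anisotropic forms of rank two are universal. -/
theorem exists_len (hS : SetF k K D d s) (hdeg : finrank K D = n ^ 2) (hg : star g = g)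
    (han : An g) (a : D) (ha : star a = a) : ∃ y : D × D, hh g y y = a := by
  obtain ⟨x, y, h⟩ := H428.repF hS hdeg (b := 1) (g := g) (c := a) (star_one D) hg one_ne_zero
    (ne_zero_of_An han) ha
  refine ⟨(x, y), ?_⟩
  rw [hh, ← h, mul_one]

/-- **(E)** A subgroup containing the commutators of the isometry group contains the isometries of
reduced norm one. -/
theorem top_of_comm (hS : SetF k K D d s) (hdeg : finrank K D = n ^ 2) (hg : star g = g)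
    (han : An g) (f : D →ₐ[K] Matrix (Fin n) (Fin n) Ω) (hAB : StepAB D)
    (Q : Subgroup ((D × D) ≃ₗ[D] (D × D)))
    (hcc : ∀ u ∈ Uh g, ∀ v ∈ Uh g, u * v * u⁻¹ * v⁻¹ ∈ Q) : G0 f g ≤ Q := by
  have := hS.fin
  have := hS.cen
  have hn : 0 < n := H428.pos_of_deg hdeg
  have hinf : Infinite k := Hey.gff_infinite k
  exact top_of_comm_gen hS hn hg han f Q hcc hAB (fun a ha _ => exists_len hS hdeg hg han a ha)
    fun A _ F0 h1 h3 Z hZ h => H505.Wang.suk_all_ff hS hdeg f F0 h1 h3 hZ h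

/-- The stabilisers of the two vectors cover the isometry group modulo the isometries of reduced
norm one. -/
theorem gd_plane (hS : SetF k K D d s) (hdeg : finrank K D = n ^ 2) (hg : star g = g)
    (hg0 : g ≠ 0) (f : D →ₐ[K] Matrix (Fin n) (Fin n) Ω) : GD (Uh g) (G0 f g) (R1 g) (R2 g) where
  le := G0_le f g
  conj := fun v hv x hx => G0_conj f hv hx
  comm := fun u hu v hv => comm_mem f hu hv
  rU := fun _ h => h.1
  rU' := fun _ h => h.1
  cc := fun r hr r' hr' => R1_R2_comm hg0 hr hr'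
  ex := by
    intro u hu
    obtain ⟨ν, hν, hν'⟩ := nrd2_unit f hS hdeg hg hg0 hu
    obtain ⟨t, ht, htn⟩ := H428.exists_unit_nrd hS hdeg f (h0 := 1) (star_one D) one_ne_zero
      (δ := star ν) (by rw [star_star, mul_comm]; exact hν')
    rw [mul_one] at ht
    obtain ⟨l, hl, hld⟩ := exists_diag (t := t) (t' := 1) ht
      (by rw [one_mul, star_one, mul_one]) hg0
    refine ⟨u * l, ⟨mul_mem hu hl, ?_⟩, l⁻¹, (R1 g).inv_mem ⟨hl, hld.2⟩, by group⟩
    rw [nrd2_mul, hν, nrd2_diag f hld, map_one, det_one, mul_one, htn, ← map_mul, hν', map_one]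
  ex' := by
    intro u hu
    obtain ⟨t', l, hl, hld, hul⟩ := exists_lift f hS hdeg hg hg0 hu
    exact ⟨u * l, hul, l⁻¹, (R2 g).inv_mem ⟨hl, hld.1⟩, by group⟩

/-- **(F)** The isometries of reduced norm one have no proper subgroup of finite index with abelian
quotient, given the transitivity of these subgroups. -/
theorem top_two (hS : SetF k K D d s) (hdeg : finrank K D = n ^ 2) (hg : star g = g)
    (han : An g) (f : D →ₐ[K] Matrix (Fin n) (Fin n) Ω) (hAB : StepAB D)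
    (hT : ∀ Q' : Subgroup ((D × D) ≃ₗ[D] (D × D)), Q' ≤ G0 f g →
      (∀ a ∈ G0 f g, ∀ b ∈ G0 f g, a * b * a⁻¹ * b⁻¹ ∈ Q') → Q'.relIndex (G0 f g) ≠ 0 →
      ∀ x ∈ G0 f g, ∃ u ∈ Q', ∃ δ : D, δ ≠ 0 ∧ u e₁ = δ • x e₁)
    {Q : Subgroup ((D × D) ≃ₗ[D] (D × D))} (hQ : Q ≤ G0 f g)
    (hab : ∀ a ∈ G0 f g, ∀ b ∈ G0 f g, a * b * a⁻¹ * b⁻¹ ∈ Q)
    (hfi : Q.relIndex (G0 f g) ≠ 0) : G0 f g ≤ Q := by
  have hg0 : g ≠ 0 := ne_zero_of_An han
  have hD := gd_plane hS hdeg hg hg0 f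
  refine top_of_data hD ?_ (fun Q' _ h => top_of_comm hS hdeg hg han f hAB Q' h) hQ hab hfi
  intro Q' hQ' hab' hfi' x hx
  obtain ⟨u, hu, δ, hδ, hue⟩ := hT Q' hQ' hab' hfi' x hx
  have hxU : x ∈ Uh g := hx.1
  have huU : u ∈ Uh g := (hQ' hu).1
  have hv : x⁻¹ * u ∈ Uh g := mul_mem (inv_mem hxU) huU
  have hve : (x⁻¹ * u) (1, 0) = (δ, 0) := by
    change x⁻¹ (u (1, 0)) = _
    have h1 : u (1, 0) = δ • x (1, 0) := hue
    rw [h1, map_smul]
    have h5 : x⁻¹ (x ((1, 0) : D × D)) = (1, 0) := x.symm_apply_apply _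
    rw [h5]
    simp
  obtain ⟨h1, t', h2, h3⟩ := isDiag_of_line hv hve
  obtain ⟨r, hr, hrd⟩ := exists_diag (t := δ) (t' := 1) h1 (by rw [one_mul, star_one, mul_one]) hg0
  obtain ⟨r', hr', hrd'⟩ := exists_diag (t := 1) (t' := t') (by rw [star_one, mul_one]) h2 hg0
  have h4 := isDiag_mul hrd hrd'
  rw [one_mul, mul_one] at h4
  have h5 : x⁻¹ * u = r * r' := isDiag_unique h3 h4
  have hr1 : r ∈ R1 g := ⟨hr, hrd.2⟩
  have hr2 : r' ∈ R2 g := ⟨hr', hrd'.1⟩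
  refine ⟨u, hu, r⁻¹, inv_mem hr1, r'⁻¹, inv_mem hr2, ?_⟩
  have h6 : r⁻¹ * r'⁻¹ = (r * r')⁻¹ := by
    rw [R1_R2_comm hg0 hr1 hr2, _root_.mul_inv_rev]
  rw [h6, ← h5]
  group

/-- A normal subgroup of prime index contains the commutators. -/
theorem comm_mem_of_prime {W : Type*} [Group W] {G Q : Subgroup W}
    (hn : ∀ a ∈ G, ∀ x ∈ Q, a * x * a⁻¹ ∈ Q) (hp : (Q.relIndex G).Prime) :
    ∀ a ∈ G, ∀ b ∈ G, a * b * a⁻¹ * b⁻¹ ∈ Q := by
  have hnorm : (Q.subgroupOf G).Normal := ⟨fun q hq x => by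
    rw [Subgroup.mem_subgroupOf] at hq ⊢
    exact hn x x.2 q hq⟩
  have hcard : Nat.card (G ⧸ Q.subgroupOf G) = Q.relIndex G := rfl
  have hfact : Fact (Q.relIndex G).Prime := ⟨hp⟩
  have hcyc : IsCyclic (G ⧸ Q.subgroupOf G) := isCyclic_of_prime_card hcard
  intro a ha b hb
  have h1 : ((⟨a, ha⟩ * ⟨b, hb⟩ * (⟨a, ha⟩ : G)⁻¹ * (⟨b, hb⟩ : G)⁻¹ : G) : G ⧸ Q.subgroupOf G) =
      1 := by
    have hcm : ∀ x y : G ⧸ Q.subgroupOf G, x * y = y * x :=
      (IsCyclic.commGroup (α := G ⧸ Q.subgroupOf G)).mul_comm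
    rw [QuotientGroup.mk_mul, QuotientGroup.mk_mul, QuotientGroup.mk_mul, QuotientGroup.mk_inv,
      QuotientGroup.mk_inv, hcm (QuotientGroup.mk ⟨a, ha⟩) (QuotientGroup.mk ⟨b, hb⟩)]
    group
  rw [QuotientGroup.eq_one_iff, Subgroup.mem_subgroupOf] at h1
  exact h1

/-- **(F)**, for normal subgroups of prime index. -/
theorem not_prime_two (hS : SetF k K D d s) (hdeg : finrank K D = n ^ 2) (hg : star g = g)
    (han : An g) (f : D →ₐ[K] Matrix (Fin n) (Fin n) Ω) (hAB : StepAB D)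
    (hT : ∀ Q' : Subgroup ((D × D) ≃ₗ[D] (D × D)), Q' ≤ G0 f g →
      (∀ a ∈ G0 f g, ∀ b ∈ G0 f g, a * b * a⁻¹ * b⁻¹ ∈ Q') → Q'.relIndex (G0 f g) ≠ 0 →
      ∀ x ∈ G0 f g, ∃ u ∈ Q', ∃ δ : D, δ ≠ 0 ∧ u e₁ = δ • x e₁)
    {Q : Subgroup ((D × D) ≃ₗ[D] (D × D))} (hQ : Q ≤ G0 f g)
    (hn : ∀ a ∈ G0 f g, ∀ x ∈ Q, a * x * a⁻¹ ∈ Q) : ¬ (Q.relIndex (G0 f g)).Prime := by
  intro hp
  have h1 := top_two hS hdeg hg han f hAB hT hQ (comm_mem_of_prime hn hp) hp.ne_zero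
  rw [Subgroup.relIndex_eq_one.mpr h1] at hp
  exact Nat.not_prime_one hp

end Vale.Agent.P011.H124.R4
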